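import Vale.Agent.P271.LOC.SumPP
import Vale.Agent.P271.Inst.Stat
import Vale.Agent.P271.Inst.Null

/-!
P271, block LOC: (A4) in the form `Inst.A4Stat`.
-/

open MeasureTheory Filter Topology Metric
open scoped ENNReal NNReal ComplexConjugate

namespace Vale.Agent.P271.LOC

open Finsupp in
theorem a4Stat : Inst.A4Stat := by
  intro m a ι _ g κ f₁ f₂ hg hgz hκ hf₁ hf₂ hz₁ hz₂ hz₃ K e he heK hint
  classical
  set ev : ι ⊕ Fin 3 → (Fin m → ℂ) → ℂ :=
    Sum.elim g ![f₁, f₂, fun x => f₁ x + f₂ x] with hev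
  have han : ∀ i, AnalyticAt ℂ (ev i) a := by
    rintro (i | i)
    · exact hg i
    · fin_cases i
      · exact hf₁
      · exact hf₂
      · exact hf₁.add hf₂
  have hnz : ∀ i, Inst.NZ a (ev i) := by
    rintro (i | i)
    · exact hgz i
    · fin_cases i
      · exact hz₁
      · exact hz₂
      · exact hz₃
  set k : ι ⊕ Fin 3 →₀ ℝ := Finsupp.equivFunOnFinite.symm (Sum.elim κ fun _ => 0) with hk
  have hk0 : ∀ x, 0 ≤ k x := by
    rintro (i | i)
    · exact hκ i
    · exact le_rfl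
  have hlg : ∀ x, Zorn.lg ev k x = ∑ i, κ i * Real.log ‖g i x‖ := by
    intro x
    unfold Zorn.lg
    rw [Zorn.pair_eq_sum_of_subset k _ (Finset.subset_univ _), Fintype.sum_sum_type]
    simp [hk, hev]
  obtain ⟨K₁, K₂, h1, h2, h3, h4⟩ := sum_PP (ev := ev) (z := a)
    (fun i => by
      obtain ⟨U, hU, hUo, haU⟩ := _root_.eventually_nhds_iff.1 (han i).eventually_analyticAt
      exact ⟨U, hUo.mem_nhds haU, fun x hx => (hU x hx).differentiableAt.differentiableWithinAt⟩)
    (fun i => Inst.eventually_ae_ne (han i) (hnz i)) hk0 (f := Sum.inr 0) (g := Sum.inr 1)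
    (s := Sum.inr 2) (Eventually.of_forall fun x => rfl) he heK (by
      have h5 : Zorn.wt ev (k + single (Sum.inr 2) K) = fun x => ENNReal.ofReal (Real.exp
          (-2 * (∑ i, κ i * Real.log ‖g i x‖ + K * Real.log ‖f₁ x + f₂ x‖))) := by
        funext x
        unfold Zorn.wt
        rw [Zorn.lg_add, Zorn.lg_single, hlg]
        rfl
      show Zorn.LI volume (𝓝 a) (Zorn.wt ev (k + single (Sum.inr 2) K))
      rw [h5]
      exact hint)
  refine ⟨K₁, K₂, h1, h2, h3, ?_⟩
  have h5 : Zorn.wt ev (k + single (Sum.inr 0) K₁ + single (Sum.inr 1) K₂) =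
      fun x => ENNReal.ofReal (Real.exp (-2 * (∑ i, κ i * Real.log ‖g i x‖ +
        (K₁ * Real.log ‖f₁ x‖ + K₂ * Real.log ‖f₂ x‖)))) := by
    funext x
    unfold Zorn.wt
    rw [Zorn.lg_add, Zorn.lg_add, Zorn.lg_single, Zorn.lg_single, hlg, add_assoc]
    rfl
  have h6 : Zorn.LI volume (𝓝 a) (Zorn.wt ev (k + single (Sum.inr 0) K₁ +
    single (Sum.inr 1) K₂)) := h4
  rw [h5] at h6
  exact h6

end Vale.Agent.P271.LOC
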