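import Mathlib

/-!
P271, block LOC: the cut-off function and the convex function of the extension lemma.
-/

open MeasureTheory Filter Topology Metric
open scoped ENNReal NNReal ComplexConjugate ContDiff

namespace Vale.Agent.P271.LOC

/-- A cut-off function: `1` for `t ≤ -s-2`, `0` for `t ≥ -s-1`. -/
noncomputable def cut (s t : ℝ) : ℝ := Real.smoothTransition (-s - 1 - t)

theorem cut_one {s t : ℝ} (h : t ≤ -s - 2) : cut s t = 1 :=
  Real.smoothTransition.one_of_one_le (by linarith)

theorem cut_zero {s t : ℝ} (h : -s - 1 ≤ t) : cut s t = 0 :=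
  Real.smoothTransition.zero_of_nonpos (by linarith)

theorem cut_nonneg (s t : ℝ) : 0 ≤ cut s t := Real.smoothTransition.nonneg _

theorem cut_le_one (s t : ℝ) : cut s t ≤ 1 := Real.smoothTransition.le_one _

theorem cut_contDiff (s : ℝ) (m : ℕ) : ContDiff ℝ m (cut s) := by
  unfold cut
  exact (Real.smoothTransition.contDiff (n := m)).comp (contDiff_const.sub contDiff_id)

theorem cut_diff (s t : ℝ) : DifferentiableAt ℝ (cut s) t :=
  ((cut_contDiff s 1).differentiable (by norm_num)) t

theorem deriv_cut (s t : ℝ) : deriv (cut s) t = -deriv Real.smoothTransition (-s - 1 - t) := by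
  have h : cut s = fun t => Real.smoothTransition (-s - 1 - t) := rfl
  rw [h]
  exact deriv_comp_const_sub (f := Real.smoothTransition) (-s - 1) t

theorem deriv_cut_zero {s t : ℝ} (h : -s - 1 ≤ t) : deriv (cut s) t = 0 := by
  have h1 : IsLocalMin (cut s) t := Eventually.of_forall fun x => by
    rw [cut_zero h]
    exact cut_nonneg s x
  exact h1.deriv_eq_zero

theorem deriv_cut_zero' {s t : ℝ} (h : t ≤ -s - 2) : deriv (cut s) t = 0 := by
  have h1 : IsLocalMax (cut s) t := Eventually.of_forall fun x => by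
    rw [cut_one h]
    exact cut_le_one s x
  exact h1.deriv_eq_zero

theorem exists_cut_bound : ∃ K : ℝ, 0 < K ∧ ∀ s t, |deriv (cut s) t| ≤ K := by
  have h1 : Continuous (deriv Real.smoothTransition) :=
    (Real.smoothTransition.contDiff (n := 1)).continuous_deriv (by norm_num)
  obtain ⟨K, hK⟩ := (isCompact_Icc (a := (0 : ℝ)) (b := 1)).exists_bound_of_continuousOn
    h1.continuousOn
  refine ⟨max K 1, lt_of_lt_of_le zero_lt_one (le_max_right _ _), fun s t => ?_⟩
  by_cases h : t ≤ -s - 2
  · rw [deriv_cut_zero' h, abs_zero]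
    exact le_trans zero_le_one (le_max_right _ _)
  by_cases h' : -s - 1 ≤ t
  · rw [deriv_cut_zero h', abs_zero]
    exact le_trans zero_le_one (le_max_right _ _)
  rw [deriv_cut, abs_neg, ← Real.norm_eq_abs]
  refine (hK _ ⟨?_, ?_⟩).trans (le_max_left _ _)
  · linarith [not_le.1 h']
  · linarith [not_le.1 h]

/-- A bound for the derivative of the cut-off function. -/
noncomputable def cutK : ℝ := Classical.choose exists_cut_bound

theorem cutK_pos : 0 < cutK := (Classical.choose_spec exists_cut_bound).1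

theorem deriv_cut_le (s t : ℝ) : |deriv (cut s) t| ≤ cutK :=
  (Classical.choose_spec exists_cut_bound).2 s t

/-- The convex function `log (1 + e^{t+s})`. -/
noncomputable def chi (s t : ℝ) : ℝ := Real.log (1 + Real.exp (t + s))

/-- Its derivative. -/
noncomputable def chi1 (s t : ℝ) : ℝ := Real.exp (t + s) / (1 + Real.exp (t + s))

/-- Its second derivative. -/
noncomputable def chi2 (s t : ℝ) : ℝ := Real.exp (t + s) / (1 + Real.exp (t + s)) ^ 2

theorem one_add_exp_pos (x : ℝ) : 0 < 1 + Real.exp x := by positivity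

theorem chi_hasDeriv (s t : ℝ) : HasDerivAt (chi s) (chi1 s t) t := by
  have h1 : HasDerivAt (fun t => Real.exp (t + s)) (Real.exp (t + s)) t := by
    simpa using (Real.hasDerivAt_exp (t + s)).comp_add_const t s
  have h2 := (h1.const_add 1).log (one_add_exp_pos _).ne'
  exact h2

theorem chi1_hasDeriv (s t : ℝ) : HasDerivAt (chi1 s) (chi2 s t) t := by
  have h1 : HasDerivAt (fun t => Real.exp (t + s)) (Real.exp (t + s)) t := by
    simpa using (Real.hasDerivAt_exp (t + s)).comp_add_const t s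
  have h2 := h1.div (h1.const_add 1) (one_add_exp_pos _).ne'
  refine h2.congr_deriv ?_
  unfold chi2
  ring

theorem chi_nonneg (s t : ℝ) : 0 ≤ chi s t :=
  Real.log_nonneg (by linarith [Real.exp_pos (t + s)])

theorem chi1_pos (s t : ℝ) : 0 < chi1 s t := div_pos (Real.exp_pos _) (one_add_exp_pos _)

theorem chi2_pos (s t : ℝ) : 0 < chi2 s t :=
  div_pos (Real.exp_pos _) (pow_pos (one_add_exp_pos _) 2)

theorem chi_cd (s : ℝ) (m : ℕ) : ContDiff ℝ m (chi s) := by
  unfold chi
  refine ContDiff.log ?_ fun t => (one_add_exp_pos _).ne'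
  exact contDiff_const.add (Real.contDiff_exp.comp (contDiff_id.add contDiff_const))

theorem exp_two_le : Real.exp 2 ≤ 8 := by
  have h := Real.exp_one_lt_d9
  have h2 : Real.exp 2 = Real.exp 1 ^ 2 := by
    rw [← Real.exp_nat_mul]
    norm_num
  rw [h2]
  nlinarith [Real.exp_pos 1]

theorem le_chi2 {s t : ℝ} (h1 : -s - 2 ≤ t) (h2 : t ≤ -s - 1) : 1 / 32 ≤ chi2 s t := by
  have h3 : 1 / 8 ≤ Real.exp (t + s) := by
    calc (1 : ℝ) / 8 ≤ (Real.exp 2)⁻¹ := by
          rw [one_div]
          exact inv_anti₀ (Real.exp_pos _) exp_two_le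
      _ = Real.exp (-2) := (Real.exp_neg _).symm
      _ ≤ _ := Real.exp_le_exp.2 (by linarith)
  have h4 : Real.exp (t + s) ≤ 1 := by
    rw [← Real.exp_zero]
    exact Real.exp_le_exp.2 (by linarith)
  unfold chi2
  rw [le_div_iff₀ (pow_pos (one_add_exp_pos _) 2)]
  nlinarith

theorem chi_le {s t : ℝ} (hs : 0 ≤ s) (h : t ≤ 1 / 2) : chi s t ≤ s + 2 := by
  unfold chi
  rw [Real.log_le_iff_le_exp (one_add_exp_pos _)]
  have h1 : Real.exp (t + s) ≤ Real.exp (s + 1 / 2) := Real.exp_le_exp.2 (by linarith)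
  have h2 : (1 : ℝ) ≤ Real.exp (s + 1 / 2) := Real.one_le_exp (by linarith)
  have h3 : (2 : ℝ) ≤ Real.exp (3 / 2) := by
    have := Real.add_one_le_exp (3 / 2 : ℝ)
    linarith
  have h4 : Real.exp (s + 2) = Real.exp (s + 1 / 2) * Real.exp (3 / 2) := by
    rw [← Real.exp_add]
    congr 1
    ring
  rw [h4]
  nlinarith

theorem chi_le_one {s t : ℝ} (h : t ≤ -s) : chi s t ≤ 1 := by
  unfold chi
  rw [Real.log_le_iff_le_exp (one_add_exp_pos _)]
  have h1 : Real.exp (t + s) ≤ 1 := by
    rw [← Real.exp_zero]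
    exact Real.exp_le_exp.2 (by linarith)
  have h2 := Real.add_one_le_exp (1 : ℝ)
  linarith

end Vale.Agent.P271.LOC
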