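import Vale.Agent.P271.H408.Mean

/-!
P271, block LOC: uniform Lipschitz bounds for holomorphic functions with bounded `L²` norm.
-/

open MeasureTheory Filter Topology Metric
open scoped ENNReal NNReal

namespace Vale.Agent.P271.LOC

variable {n : ℕ}

theorem exists_lip {r : ℝ} (hr : 0 < r) {B : ℝ≥0∞} (hB : B ≠ ⊤) :
    ∃ ρ : ℝ, 0 < ρ ∧ ρ ≤ r ∧ ∀ (z : Fin n → ℂ) (G : (Fin n → ℂ) → ℂ),
      DifferentiableOn ℂ G (ball z r) → ∫⁻ w in ball z r, ‖G w‖ₑ ^ 2 ≤ B →
      ∀ w ∈ ball z ρ, ‖G w - G z‖ ≤ 1 / 4 := by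
  have hr2 : 0 < r / 2 := by positivity
  set v : ℝ≥0∞ := volume (ball (0 : Fin n → ℂ) (r / 2)) with hv
  have hv0 : v ≠ 0 := (measure_ball_pos volume _ hr2).ne'
  have hvt : v ≠ ⊤ := measure_ball_lt_top.ne
  set M : ℝ := Real.sqrt (B / v).toReal with hM
  have hM0 : 0 ≤ M := Real.sqrt_nonneg _
  have hbd : ∀ (z : Fin n → ℂ) (G : (Fin n → ℂ) → ℂ), DifferentiableOn ℂ G (ball z r) →
      ∫⁻ w in ball z r, ‖G w‖ₑ ^ 2 ≤ B → ∀ w ∈ ball z (r / 2), ‖G w‖ ≤ M := by
    intro z G hG hGB w hw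
    have hsub : ball w (r / 2) ⊆ ball z r := by
      refine ball_subset_ball' ?_
      rw [mem_ball] at hw
      linarith
    have h1 := H408.enorm_sq_mul_volume_le (hG.mono hsub)
    have h2 : volume (ball w (r / 2)) = v := Measure.addHaar_ball_center _ _ _
    rw [h2] at h1
    have h3 : ‖G w‖ₑ ^ 2 * v ≤ B := h1.trans ((lintegral_mono_set hsub).trans hGB)
    have h4 : ‖G w‖ₑ ^ 2 ≤ B / v := (ENNReal.le_div_iff_mul_le (Or.inl hv0) (Or.inl hvt)).2 h3
    have h5 : B / v ≠ ⊤ := ENNReal.div_ne_top hB hv0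
    have h6 : ‖G w‖ ^ 2 ≤ (B / v).toReal := by
      have h7 := ENNReal.toReal_mono h5 h4
      rwa [ENNReal.toReal_pow, toReal_enorm] at h7
    exact Real.le_sqrt_of_sq_le h6
  refine ⟨min (r / 2) (r / (16 * (M + 1))), lt_min hr2 (by positivity),
    (min_le_left _ _).trans (by linarith), fun z G hG hGB w hw => ?_⟩
  have hw1 : w ∈ ball z (r / 2) := ball_subset_ball (min_le_left _ _) hw
  have hw2 : dist w z < r / (16 * (M + 1)) := (mem_ball.1 hw).trans_le (min_le_right _ _)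
  have hsub : ball z (r / 2) ⊆ ball z r := ball_subset_ball (by linarith)
  have hmaps : Set.MapsTo G (ball z (r / 2)) (closedBall (G z) (2 * M)) := by
    intro y hy
    rw [mem_closedBall, dist_eq_norm]
    have h1 := hbd z G hG hGB y hy
    have h2 := hbd z G hG hGB z (mem_ball_self hr2)
    exact (norm_sub_le _ _).trans (by linarith)
  have h3 := Complex.dist_le_div_mul_dist_of_mapsTo_ball (hG.mono hsub) hmaps hw1
  rw [← dist_eq_norm]
  refine h3.trans ?_
  have h4 : 2 * M / (r / 2) * dist w z ≤ 2 * M / (r / 2) * (r / (16 * (M + 1))) :=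
    mul_le_mul_of_nonneg_left hw2.le (by positivity)
  refine h4.trans ?_
  have h5 : 2 * M / (r / 2) * (r / (16 * (M + 1))) = M / (4 * (M + 1)) := by
    field_simp
    ring
  rw [h5, div_le_iff₀ (by positivity)]
  linarith

end Vale.Agent.P271.LOC
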