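import Vale.Agent.P271.LOC.Fac
import Vale.Agent.P271.LOC.Cut
import Vale.Agent.P271.LOC.Lip
import Vale.Agent.P271.H884.Holo
import Vale.Agent.P271.H884.Poly

/-!
P271, block LOC: the alternative in the two-function summation lemma.
-/

open MeasureTheory Filter Topology Metric
open scoped ENNReal NNReal ComplexConjugate

namespace Vale.Agent.P271.LOC

open Vale.Agent.P282.L2 Vale.Agent.P271.Dom

variable {n : ℕ} {ι : Type*} [Fintype ι]

/-- `log (|g|² + ε) - log (|f|² + ε)`. -/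
noncomputable def rh (f g : (Fin n → ℂ) → ℂ) (ε : ℝ) (w : Fin n → ℂ) : ℝ :=
  lg g ε w + (-1) * lg f ε w

/-- The weight. -/
noncomputable def Ph (h : ι → (Fin n → ℂ) → ℂ) (f g : (Fin n → ℂ) → ℂ) (k : ι → ℝ) (s t δ ε : ℝ)
    (w : Fin n → ℂ) : ℝ :=
  bg h k ε w + (s * lg f ε w + (t * lg g ε w + δ * (lg f ε w + chi 0 (rh f g ε w))))

variable {h : ι → (Fin n → ℂ) → ℂ} {f g : (Fin n → ℂ) → ℂ} {V : Set (Fin n → ℂ)}
  {k : ι → ℝ} {s t δ ε : ℝ} {w z : Fin n → ℂ}

theorem rh_cda (hV : IsOpen V) (hf : DifferentiableOn ℂ f V) (hg : DifferentiableOn ℂ g V)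
    (hw : w ∈ V) (hε : 0 < ε) (m : ℕ) : ContDiffAt ℝ m (rh f g ε) w :=
  (lg_cda hV hg hw hε m).add (contDiffAt_const.mul (lg_cda hV hf hw hε m))

theorem chirh_cda (hV : IsOpen V) (hf : DifferentiableOn ℂ f V) (hg : DifferentiableOn ℂ g V)
    (hw : w ∈ V) (hε : 0 < ε) (m : ℕ) : ContDiffAt ℝ m (fun w => chi 0 (rh f g ε w)) w :=
  (chi_cd 0 m).contDiffAt.comp w (rh_cda hV hf hg hw hε m)

theorem Ph_cda (hV : IsOpen V) (hh : ∀ i, DifferentiableOn ℂ (h i) V)
    (hf : DifferentiableOn ℂ f V) (hg : DifferentiableOn ℂ g V)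
    (hw : w ∈ V) (hε : 0 < ε) (m : ℕ) : ContDiffAt ℝ m (Ph h f g k s t δ ε) w := by
  have h1 := bg_cda (k := k) hV hh hw hε m
  have h2 := lg_cda hV hf hw hε m
  have h3 := lg_cda hV hg hw hε m
  have h4 := chirh_cda hV hf hg hw hε m
  exact h1.add ((contDiffAt_const.mul h2).add ((contDiffAt_const.mul h3).add
    (contDiffAt_const.mul (h2.add h4))))

theorem Ph_levi (hV : IsOpen V) (hh : ∀ i, DifferentiableOn ℂ (h i) V)
    (hf : DifferentiableOn ℂ f V) (hg : DifferentiableOn ℂ g V) (hk : ∀ i, 0 ≤ k i)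
    (hs : 0 ≤ s) (ht : 0 ≤ t) (hδ : 0 ≤ δ) (hw : w ∈ V) (hε : 0 < ε) (β : Fin n → ℂ) :
    δ * (chi2 0 (rh f g ε w) * ‖dF (rh f g ε) β w‖ ^ 2) ≤ leviF (Ph h f g k s t δ ε) β w := by
  have h1 := bg_cda (k := k) hV hh hw hε 2
  have h2 := lg_cda hV hf hw hε 2
  have h3 := lg_cda hV hg hw hε 2
  have h4 := chirh_cda hV hf hg hw hε 2
  have h5 : leviF (Ph h f g k s t δ ε) β w = leviF (bg h k ε) β w + (s * leviF (lg f ε) β w +
      (t * leviF (lg g ε) β w + δ * (leviF (lg f ε) β w +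
        leviF (fun w => chi 0 (rh f g ε w)) β w))) := by
    unfold Ph
    rw [leviF_add h1 ((contDiffAt_const.mul h2).add ((contDiffAt_const.mul h3).add
      (contDiffAt_const.mul (h2.add h4)))),
      leviF_add (contDiffAt_const.mul h2) ((contDiffAt_const.mul h3).add
      (contDiffAt_const.mul (h2.add h4))),
      leviF_add (contDiffAt_const.mul h3) (contDiffAt_const.mul (h2.add h4)),
      leviF_const_mul h2, leviF_const_mul h3, leviF_const_mul (h2.add h4), leviF_add h2 h4]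
  have h6 : leviF (rh f g ε) β w = leviF (lg g ε) β w + (-1) * leviF (lg f ε) β w := by
    unfold rh
    rw [leviF_add h3 (contDiffAt_const.mul h2), leviF_const_mul h2]
  have h7 : leviF (fun w => chi 0 (rh f g ε w)) β w =
      chi1 0 (rh f g ε w) * leviF (rh f g ε) β w +
        chi2 0 (rh f g ε w) * ‖dF (rh f g ε) β w‖ ^ 2 :=
    leviF_comp (φ := chi 0) (φ' := chi1 0) (rh_cda hV hf hg hw hε 2)
      (Eventually.of_forall fun y => chi_hasDeriv 0 _) (chi1_hasDeriv 0 _) β
  have h8 := bg_levi hV hh hk hw hε β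
  have h9 := lg_levi hV hf hw hε β
  have h10 := lg_levi hV hg hw hε β
  have h11 := (chi1_pos 0 (rh f g ε w)).le
  have h12 : chi1 0 (rh f g ε w) ≤ 1 := by
    unfold chi1
    rw [div_le_one (one_add_exp_pos _)]
    linarith
  rw [h5, h7, h6]
  have h13 : 0 ≤ leviF (lg f ε) β w + chi1 0 (rh f g ε w) *
      (leviF (lg g ε) β w + -1 * leviF (lg f ε) β w) := by
    have h14 := mul_nonneg h11 h10
    have h15 := mul_nonneg (sub_nonneg.2 h12) h9
    nlinarith
  have h16 := mul_nonneg hδ h13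
  have h17 := mul_nonneg hs h9
  have h18 := mul_nonneg ht h10
  nlinarith

/-- One application of Hoermander's theorem. -/
theorem hor_one (hV : IsOpen V) (hh : ∀ i, DifferentiableOn ℂ (h i) V)
    (hf : DifferentiableOn ℂ f V) (hg : DifferentiableOn ℂ g V) (hk : ∀ i, 0 ≤ k i)
    (hs : 0 ≤ s) (ht : 0 ≤ t) (hδ : 0 < δ) (hε : 0 < ε)
    {r : ℝ} (hr : 0 < r) (hrV : closedBall z r ⊆ V)
    {J : ℝ} (hJ0 : 0 ≤ J) (hint : ∫⁻ w in ball z r, pw h k w *
      (max ‖f w‖ₑ ‖g w‖ₑ) ^ (-(2 * (s + t + δ))) ≤ ENNReal.ofReal J) :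
    ∃ G : (Fin n → ℂ) → ℂ, DifferentiableOn ℂ G (ball z r) ∧
      ∫⁻ w in ball z r, ENNReal.ofReal (‖G w - (cut 0 (rh f g ε w) : ℝ)‖ ^ 2 *
        Real.exp (-Ph h f g k s t δ ε w)) ≤
        ENNReal.ofReal (2 * (32 * cutK ^ 2 / δ * Real.exp (2 * t) * J)) := by
  obtain ⟨p, C, -, hE⟩ := exh_ball (z₀ := z) hr
  have hbV : ball z r ⊆ V := ball_subset_closedBall.trans hrV
  set σ : (Fin n → ℂ) → ℂ := fun w => ((cut 0 (rh f g ε w) : ℝ) : ℂ) with hσ
  have hρc : ∀ w ∈ V, ContDiffAt ℝ 2 (rh f g ε) w := fun w hw => rh_cda hV hf hg hw hε 2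
  have hσV : ContDiffOn ℝ 2 σ V := fun w hw =>
    (Complex.ofRealCLM.contDiff.contDiffAt.comp w
      ((cut_contDiff 0 2).contDiffAt.comp w (hρc w hw))).contDiffWithinAt
  have hdz : ∀ w ∈ V, ∀ j, dzb j σ w = ((deriv (cut 0) (rh f g ε w) : ℝ) : ℂ) *
      dzb j (fun w => (rh f g ε w : ℂ)) w := fun w hw j =>
    dzb_comp_real ((hρc w hw).differentiableAt (by norm_num)) (cut_diff 0 _)
  have hbd : ∃ (c : ℝ) (k : ℕ), ∀ w ∈ ball z r, ∀ j, ‖dzb j σ w‖ ≤ c * (1 + p w) ^ k := by
    have h1 : ∀ j : Fin n, ∃ c : ℝ, ∀ w ∈ closedBall z r, ‖dzb j σ w‖ ≤ c := by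
      intro j
      have h2 : ContDiffOn ℝ 1 (dzb j σ) V := contDiffOn_dzb (m := 1) hV (by simpa using hσV)
      exact (isCompact_closedBall z r).exists_bound_of_continuousOn (h2.continuousOn.mono hrV)
    choose c hc using h1
    refine ⟨∑ j, |c j|, 0, fun w hw j => ?_⟩
    rw [pow_zero, mul_one]
    refine (hc j w (ball_subset_closedBall hw)).trans ((le_abs_self _).trans ?_)
    exact Finset.single_le_sum (f := fun j => |c j|) (fun i _ => abs_nonneg _) (Finset.mem_univ j)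
  set a : (Fin n → ℂ) → ℝ := fun w =>
    (deriv (cut 0) (rh f g ε w)) ^ 2 / (δ * chi2 0 (rh f g ε w)) with ha
  have ha0 : ∀ w, 0 ≤ a w := fun w =>
    div_nonneg (sq_nonneg _) (mul_nonneg hδ.le (chi2_pos _ _).le)
  have hρcont : ContinuousOn (rh f g ε) V := fun w hw =>
    ((hρc w hw).continuousAt).continuousWithinAt
  have hchi2 : Continuous (chi2 0) := by
    unfold chi2
    refine Continuous.div (by fun_prop) (by fun_prop) fun t => ?_
    exact (pow_pos (one_add_exp_pos _) 2).ne'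
  have hcutd : Continuous (deriv (cut 0)) := (cut_contDiff 0 1).continuous_deriv (by norm_num)
  have ham : AEMeasurable a (volume.restrict (ball z r)) := by
    have h1 : ContinuousOn a V := by
      refine ContinuousOn.div ((hcutd.comp_continuousOn hρcont).pow 2)
        (continuousOn_const.mul (hchi2.comp_continuousOn hρcont)) fun w _ => ?_
      exact (mul_pos hδ (chi2_pos _ _)).ne'
    exact (h1.mono hbV).aemeasurable measurableSet_ball
  have hab : ∀ w ∈ ball z r, ∀ β : Fin n → ℂ,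
      ‖∑ j, dzb j σ w * conj (β j)‖ ^ 2 ≤ a w * leviF (Ph h f g k s t δ ε) β w := by
    intro w hw β
    have h1 : ∑ j, dzb j σ w * conj (β j) =
        ((deriv (cut 0) (rh f g ε w) : ℝ) : ℂ) * conj (dF (rh f g ε) β w) := by
      rw [← sum_dzb_conj, Finset.mul_sum]
      refine Finset.sum_congr rfl fun j _ => ?_
      rw [hdz w (hbV hw) j, mul_assoc]
    rw [h1, norm_mul, RCLike.norm_conj, Complex.norm_real, mul_pow, Real.norm_eq_abs, sq_abs]
    have h2 := Ph_levi hV hh hf hg hk hs ht hδ.le (hbV hw) hε β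
    refine le_trans (le_of_eq ?_) (mul_le_mul_of_nonneg_left h2 (ha0 w))
    have h3 := (chi2_pos 0 (rh f g ε w)).ne'
    have h4 := hδ.ne'
    simp only [ha]
    field_simp
  set A : ℝ := 32 * cutK ^ 2 / δ * Real.exp (2 * t) * J with hA
  have hA0 : 0 ≤ A := by positivity
  have hpt : ∀ w ∈ ball z r, ENNReal.ofReal (a w * Real.exp (-Ph h f g k s t δ ε w)) ≤
      ENNReal.ofReal (32 * cutK ^ 2 / δ * Real.exp (2 * t)) *
        (pw h k w * (max ‖f w‖ₑ ‖g w‖ₑ) ^ (-(2 * (s + t + δ)))) := by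
    intro w _
    by_cases hρ : -2 ≤ rh f g ε w ∧ rh f g ε w ≤ -1
    · obtain ⟨hρ1, hρ2⟩ := hρ
      have h1 : a w ≤ 32 * cutK ^ 2 / δ := by
        have h2 := le_chi2 (s := 0) (t := rh f g ε w) (by linarith) (by linarith)
        have h3 : (deriv (cut 0) (rh f g ε w)) ^ 2 ≤ cutK ^ 2 := by
          rw [← sq_abs]
          exact pow_le_pow_left₀ (abs_nonneg _) (deriv_cut_le _ _) 2
        simp only [ha]
        rw [div_le_div_iff₀ (mul_pos hδ (chi2_pos _ _)) hδ]
        calc (deriv (cut 0) (rh f g ε w)) ^ 2 * δ ≤ cutK ^ 2 * δ := by gcongr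
          _ = 32 * cutK ^ 2 * (δ * (1 / 32)) := by ring
          _ ≤ 32 * cutK ^ 2 * (δ * chi2 0 (rh f g ε w)) := by gcongr
      have hle : lg g ε w = lg f ε w + rh f g ε w := by
        unfold rh
        ring
      have h2 : bg h k ε w + (s + t + δ) * lg f ε w - 2 * t ≤ Ph h f g k s t δ ε w := by
        unfold Ph
        have h3 : t * (lg f ε w - 2) ≤ t * lg g ε w :=
          mul_le_mul_of_nonneg_left (by linarith) ht
        have h4 := mul_nonneg hδ.le (chi_nonneg 0 (rh f g ε w))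
        nlinarith
      have h3 : ‖g w‖ ≤ ‖f w‖ := by
        have h4 : lg g ε w ≤ lg f ε w := by linarith
        unfold lg at h4
        rw [Real.log_le_log_iff (lg_arg_pos hε w) (lg_arg_pos hε w)] at h4
        exact le_of_sq_le_sq (by linarith) (norm_nonneg _)
      have h4 : max ‖f w‖ₑ ‖g w‖ₑ = ‖f w‖ₑ := by
        rw [max_eq_left]
        rw [← ofReal_norm, ← ofReal_norm]
        exact ENNReal.ofReal_le_ofReal h3
      have h5 : a w * Real.exp (-Ph h f g k s t δ ε w) ≤ 32 * cutK ^ 2 / δ * Real.exp (2 * t) *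
          (Real.exp (-bg h k ε w) * Real.exp (-((s + t + δ) * lg f ε w))) := by
        calc a w * Real.exp (-Ph h f g k s t δ ε w)
            ≤ 32 * cutK ^ 2 / δ *
              Real.exp (-(bg h k ε w + (s + t + δ) * lg f ε w - 2 * t)) := by
              gcongr
          _ = _ := by
              rw [show -(bg h k ε w + (s + t + δ) * lg f ε w - 2 * t) =
                2 * t + (-bg h k ε w + -((s + t + δ) * lg f ε w)) by ring, Real.exp_add,
                Real.exp_add]
              ring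
      refine (ENNReal.ofReal_le_ofReal h5).trans ?_
      rw [ENNReal.ofReal_mul (by positivity), ENNReal.ofReal_mul (Real.exp_pos _).le, h4]
      gcongr
      · exact bg_exp_le hk hε w
      · exact ex_le (by positivity) hε f w
    · have h1 : deriv (cut 0) (rh f g ε w) = 0 := by
        rw [not_and_or, not_le, not_le] at hρ
        rcases hρ with h2 | h2
        · exact deriv_cut_zero' (by linarith)
        · exact deriv_cut_zero (by linarith)
      have h2 : a w = 0 := by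
        simp only [ha, h1]
        simp
      rw [h2, zero_mul, ENNReal.ofReal_zero]
      exact zero_le
  obtain ⟨G, hG, hGi⟩ := holo_dom isOpen_ball hE (Φ := Ph h f g k s t δ ε)
    (fun w hw => (Ph_cda hV hh hf hg (hbV hw) hε 2).contDiffWithinAt)
    (by
      have h1 : ContinuousOn (Ph h f g k s t δ ε) (closedBall z r) := fun w hw =>
        ((Ph_cda hV hh hf hg (hrV hw) hε 0).continuousAt).continuousWithinAt
      obtain ⟨c, hc⟩ := (isCompact_closedBall z r).exists_bound_of_continuousOn h1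
      refine ⟨-c, fun w hw => ?_⟩
      have := hc w (ball_subset_closedBall hw)
      rw [Real.norm_eq_abs] at this
      exact (abs_le.1 this).1)
    (fun w hw β => (mul_nonneg hδ.le (mul_nonneg (chi2_pos _ _).le (sq_nonneg _))).trans
      (Ph_levi hV hh hf hg hk hs ht hδ.le (hbV hw) hε β))
    (s := σ) (hσV.mono hbV) hbd a ha0 ham hab hA0
    (by
      calc ∫⁻ w in ball z r, ENNReal.ofReal (a w * Real.exp (-Ph h f g k s t δ ε w))
          ≤ ∫⁻ w in ball z r, ENNReal.ofReal (32 * cutK ^ 2 / δ * Real.exp (2 * t)) *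
            (pw h k w * (max ‖f w‖ₑ ‖g w‖ₑ) ^ (-(2 * (s + t + δ)))) :=
            setLIntegral_mono' measurableSet_ball hpt
        _ = ENNReal.ofReal (32 * cutK ^ 2 / δ * Real.exp (2 * t)) * ∫⁻ w in ball z r,
            (pw h k w * (max ‖f w‖ₑ ‖g w‖ₑ) ^ (-(2 * (s + t + δ)))) :=
            lintegral_const_mul' _ _ ENNReal.ofReal_ne_top
        _ ≤ ENNReal.ofReal (32 * cutK ^ 2 / δ * Real.exp (2 * t)) * ENNReal.ofReal J := by
            gcongr
        _ = ENNReal.ofReal A := by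
            rw [← ENNReal.ofReal_mul (by positivity), hA])
  exact ⟨G, hG, hGi⟩

end Vale.Agent.P271.LOC
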