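import Vale.Agent.P271.LOC.Alt

/-!
P271, block LOC: the alternative in the two-function summation lemma, limit `ε → 0`.
-/

open MeasureTheory Filter Topology Metric
open scoped ENNReal NNReal ComplexConjugate

namespace Vale.Agent.P271.LOC

open Vale.Agent.P282.L2 Vale.Agent.P271.Dom

variable {n : ℕ} {ι : Type*} [Fintype ι]

variable {h : ι → (Fin n → ℂ) → ℂ} {f g : (Fin n → ℂ) → ℂ} {V : Set (Fin n → ℂ)}
  {k : ι → ℝ} {s t δ ε ε' : ℝ} {w z : Fin n → ℂ}

/-- `log (|f|² + |g|² + 2ε)`. -/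
theorem et_eq (hε : 0 < ε) : lg f ε w + chi 0 (rh f g ε w) =
    Real.log (‖f w‖ ^ 2 + ‖g w‖ ^ 2 + 2 * ε) := by
  unfold chi rh lg
  rw [← Real.log_mul (lg_arg_pos hε w).ne' (one_add_exp_pos _).ne']
  congr 1
  rw [add_zero, neg_one_mul, ← sub_eq_add_neg, Real.exp_sub, Real.exp_log (lg_arg_pos hε w),
    Real.exp_log (lg_arg_pos hε w)]
  have := (lg_arg_pos (f := f) hε w).ne'
  field_simp
  ring

theorem Ph_mono (hk : ∀ i, 0 ≤ k i) (hs : 0 ≤ s) (ht : 0 ≤ t) (hδ : 0 ≤ δ) (hε : 0 < ε)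
    (hεε : ε ≤ ε') : Ph h f g k s t δ ε w ≤ Ph h f g k s t δ ε' w := by
  unfold Ph
  rw [et_eq hε, et_eq (hε.trans_le hεε)]
  have h1 := bg_mono (h := h) (w := w) hk hε hεε
  have h2 := mul_le_mul_of_nonneg_left (lg_mono (f := f) (w := w) hε hεε) hs
  have h3 := mul_le_mul_of_nonneg_left (lg_mono (f := g) (w := w) hε hεε) ht
  have h4 : Real.log (‖f w‖ ^ 2 + ‖g w‖ ^ 2 + 2 * ε) ≤
      Real.log (‖f w‖ ^ 2 + ‖g w‖ ^ 2 + 2 * ε') :=
    Real.log_le_log (by positivity) (by linarith)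
  have h5 := mul_le_mul_of_nonneg_left h4 hδ
  linarith

theorem et_le (hf1 : ‖f w‖ ≤ 1) (hg1 : ‖g w‖ ≤ 1) (hε : 0 < ε) (hε1 : ε ≤ 1) :
    lg f ε w + chi 0 (rh f g ε w) ≤ 2 := by
  rw [et_eq hε, Real.log_le_iff_le_exp (by positivity)]
  have h1 : ‖f w‖ ^ 2 ≤ 1 := pow_le_one₀ (norm_nonneg _) hf1
  have h2 : ‖g w‖ ^ 2 ≤ 1 := pow_le_one₀ (norm_nonneg _) hg1
  have h3 := Real.add_one_le_exp (1 : ℝ)
  have h4 : Real.exp 2 = Real.exp 1 * Real.exp 1 := by
    rw [← Real.exp_add]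
    norm_num
  nlinarith

theorem Ph_le (hk : ∀ i, 0 ≤ k i) (hs : 0 ≤ s) (ht : 0 ≤ t) (hδ : 0 ≤ δ)
    (hh1 : ∀ i, ‖h i w‖ ≤ 1) (hf1 : ‖f w‖ ≤ 1) (hg1 : ‖g w‖ ≤ 1) (hε : 0 < ε) (hε1 : ε ≤ 1) :
    Ph h f g k s t δ ε w ≤ (∑ i, k i) + s + t + 2 * δ := by
  unfold Ph
  have h1 := bg_le hk hh1 hε hε1
  have h2 := mul_le_mul_of_nonneg_left (lg_le hf1 hε hε1) hs
  have h3 := mul_le_mul_of_nonneg_left (lg_le hg1 hε hε1) ht
  have h4 := mul_le_mul_of_nonneg_left (et_le hf1 hg1 hε hε1) hδ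
  linarith

/-- The limit of the weights. -/
theorem Ph_limit (hk : ∀ i, 0 ≤ k i) (hs : 0 ≤ s) (ht : 0 ≤ t) (hδ : 0 ≤ δ)
    (hf1 : ‖f w‖ ≤ 1) (hg1 : ‖g w‖ ≤ 1) {ε : ℕ → ℝ} (hε : ∀ m, 0 < ε m) (hε1 : ∀ m, ε m ≤ 1)
    (hlim : Tendsto ε atTop (𝓝 0)) :
    ENNReal.ofReal (Real.exp (-(2 * δ))) *
      (pw h k w * ‖f w‖ₑ ^ (-(2 * s)) * ‖g w‖ₑ ^ (-(2 * t))) ≤
      ⨆ m, ENNReal.ofReal (Real.exp (-Ph h f g k s t δ (ε m) w)) := by
  have h1 : Tendsto (fun m => ENNReal.ofReal (Real.exp (-(2 * δ))) *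
      (ENNReal.ofReal (Real.exp (-bg h k (ε m) w)) *
      ENNReal.ofReal (Real.exp (-(s * lg f (ε m) w))) *
      ENNReal.ofReal (Real.exp (-(t * lg g (ε m) w))))) atTop
      (𝓝 (ENNReal.ofReal (Real.exp (-(2 * δ))) *
      (pw h k w * ‖f w‖ₑ ^ (-(2 * s)) * ‖g w‖ₑ ^ (-(2 * t))))) := by
    refine ENNReal.Tendsto.const_mul ?_ (Or.inr ENNReal.ofReal_ne_top)
    have h2 := ENNReal.Tendsto.mul (bg_tendsto (h := h) hk hε hlim w) (Or.inl (pw_ne_zero hk))
      (ex_tendsto hs hε hlim f w) (Or.inl (enorm_rpow_neg_ne_zero _ hs))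
    exact ENNReal.Tendsto.mul h2 (Or.inl (mul_ne_zero (pw_ne_zero hk)
      (enorm_rpow_neg_ne_zero _ hs))) (ex_tendsto ht hε hlim g w)
      (Or.inl (enorm_rpow_neg_ne_zero _ ht))
  refine le_of_tendsto h1 (Eventually.of_forall fun m => ?_)
  refine le_trans ?_ (le_iSup _ m)
  rw [← ENNReal.ofReal_mul (Real.exp_pos _).le, ← ENNReal.ofReal_mul (by positivity),
    ← ENNReal.ofReal_mul (by positivity), ← Real.exp_add, ← Real.exp_add, ← Real.exp_add]
  refine ENNReal.ofReal_le_ofReal (Real.exp_le_exp.2 ?_)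
  unfold Ph
  have h4 := mul_le_mul_of_nonneg_left (et_le hf1 hg1 (hε m) (hε1 m)) hδ
  linarith

/-- **The alternative.** -/
theorem alt (hV : IsOpen V) (hh : ∀ i, DifferentiableOn ℂ (h i) V)
    (hf : DifferentiableOn ℂ f V) (hg : DifferentiableOn ℂ g V) (hk : ∀ i, 0 ≤ k i)
    (hs : 0 ≤ s) (ht : 0 ≤ t) (hδ : 0 < δ)
    {r : ℝ} (hr : 0 < r) (hrV : closedBall z r ⊆ V)
    (hh1 : ∀ w ∈ V, ∀ i, ‖h i w‖ ≤ 1) (hf1 : ∀ w ∈ V, ‖f w‖ ≤ 1) (hg1 : ∀ w ∈ V, ‖g w‖ ≤ 1)
    (hint : ∫⁻ w in ball z r, pw h k w *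
      (max ‖f w‖ₑ ‖g w‖ₑ) ^ (-(2 * (s + t + δ))) < ⊤) :
    ∃ ρ : ℝ, 0 < ρ ∧ ρ ≤ r ∧
      (∫⁻ w in ball z ρ ∩ {w | Real.exp 1 * ‖g w‖ < ‖f w‖},
        pw h k w * ‖f w‖ₑ ^ (-(2 * s)) * ‖g w‖ₑ ^ (-(2 * t)) < ⊤ ∨
      ∫⁻ w in ball z ρ ∩ {w | ‖f w‖ ≤ ‖g w‖},
        pw h k w * ‖f w‖ₑ ^ (-(2 * s)) * ‖g w‖ₑ ^ (-(2 * t)) < ⊤) := by
  have hbV : ball z r ⊆ V := ball_subset_closedBall.trans hrV
  obtain ⟨J, hJ0, hJ⟩ : ∃ J : ℝ, 0 ≤ J ∧ ∫⁻ w in ball z r, pw h k w *
      (max ‖f w‖ₑ ‖g w‖ₑ) ^ (-(2 * (s + t + δ))) ≤ ENNReal.ofReal J :=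
    ⟨_, ENNReal.toReal_nonneg, (ENNReal.ofReal_toReal hint.ne).ge⟩
  set A : ℝ := 2 * (32 * cutK ^ 2 / δ * Real.exp (2 * t) * J) with hA
  have hA0 : 0 ≤ A := by positivity
  set ε : ℕ → ℝ := fun m => 1 / (m + 1) with hεdef
  have hε : ∀ m, 0 < ε m := fun m => by positivity
  have hε1 : ∀ m, ε m ≤ 1 := fun m => by
    rw [hεdef]
    simp only
    rw [div_le_one (by positivity)]
    linarith [(Nat.cast_nonneg m : (0 : ℝ) ≤ m)]
  have hlim : Tendsto ε atTop (𝓝 0) := tendsto_one_div_add_atTop_nhds_zero_nat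
  have hanti : Antitone ε := fun m m' hm => by
    simp only [hεdef]
    have : (m : ℝ) ≤ m' := by exact_mod_cast hm
    gcongr
  choose G hG hGi using fun m => hor_one (h := h) (f := f) (g := g) (k := k) (z := z) hV hh hf hg
    hk hs ht hδ (hε m) hr hrV hJ0 hJ
  set Cc : ℝ := (∑ i, k i) + s + t + 2 * δ with hCc
  -- `L²` bounds
  have hPle : ∀ m, ∀ w ∈ ball z r, Ph h f g k s t δ (ε m) w ≤ Cc := fun m w hw =>
    Ph_le hk hs ht hδ.le (hh1 w (hbV hw)) (hf1 w (hbV hw)) (hg1 w (hbV hw)) (hε m) (hε1 m)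
  have hGB : ∀ m, ∫⁻ w in ball z r, ‖G m w‖ₑ ^ 2 ≤
      ENNReal.ofReal (2 * Real.exp Cc) * ENNReal.ofReal A + 2 * volume (ball z r) := by
    intro m
    have h1 : ∀ w ∈ ball z r, ‖G m w‖ₑ ^ 2 ≤ ENNReal.ofReal (2 * Real.exp Cc) *
        ENNReal.ofReal (‖G m w - (cut 0 (rh f g (ε m) w) : ℝ)‖ ^ 2 *
        Real.exp (-Ph h f g k s t δ (ε m) w)) + 2 := by
      intro w hw
      have h2 : ‖G m w‖ₑ ^ 2 = ENNReal.ofReal (‖G m w‖ ^ 2) := by
        rw [← ofReal_norm, ENNReal.ofReal_pow (norm_nonneg _)]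
      have h3 : (2 : ℝ≥0∞) = ENNReal.ofReal 2 := by norm_num
      rw [h2, h3, ← ENNReal.ofReal_mul (by positivity), ← ENNReal.ofReal_add (by positivity)
        (by positivity)]
      refine ENNReal.ofReal_le_ofReal ?_
      have h4 : ‖G m w‖ ≤ ‖G m w - (cut 0 (rh f g (ε m) w) : ℝ)‖ + 1 := by
        have h5 : ‖((cut 0 (rh f g (ε m) w) : ℝ) : ℂ)‖ ≤ 1 := by
          rw [Complex.norm_real, Real.norm_eq_abs, abs_of_nonneg (cut_nonneg _ _)]
          exact cut_le_one _ _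
        calc ‖G m w‖ = ‖(G m w - (cut 0 (rh f g (ε m) w) : ℝ)) +
              ((cut 0 (rh f g (ε m) w) : ℝ) : ℂ)‖ := by rw [sub_add_cancel]
          _ ≤ _ := (norm_add_le _ _).trans (by linarith)
      have h6 : 1 ≤ Real.exp Cc * Real.exp (-Ph h f g k s t δ (ε m) w) := by
        rw [← Real.exp_add]
        exact Real.one_le_exp (by linarith [hPle m w hw])
      set x := ‖G m w - (cut 0 (rh f g (ε m) w) : ℝ)‖ with hx
      have hx0 : 0 ≤ x := norm_nonneg _
      have h7 : ‖G m w‖ ^ 2 ≤ 2 * x ^ 2 + 2 := by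
        have h8 : ‖G m w‖ ^ 2 ≤ (x + 1) ^ 2 := pow_le_pow_left₀ (norm_nonneg _) h4 2
        nlinarith [sq_nonneg (x - 1)]
      have h9 : 2 * x ^ 2 ≤ 2 * Real.exp Cc * (x ^ 2 * Real.exp (-Ph h f g k s t δ (ε m) w)) := by
        have := mul_le_mul_of_nonneg_left h6 (by positivity : (0 : ℝ) ≤ 2 * x ^ 2)
        linarith
      linarith
    calc ∫⁻ w in ball z r, ‖G m w‖ₑ ^ 2
        ≤ ∫⁻ w in ball z r, (ENNReal.ofReal (2 * Real.exp Cc) *
          ENNReal.ofReal (‖G m w - (cut 0 (rh f g (ε m) w) : ℝ)‖ ^ 2 *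
          Real.exp (-Ph h f g k s t δ (ε m) w)) + 2) := setLIntegral_mono' measurableSet_ball h1
      _ = ENNReal.ofReal (2 * Real.exp Cc) * (∫⁻ w in ball z r,
          ENNReal.ofReal (‖G m w - (cut 0 (rh f g (ε m) w) : ℝ)‖ ^ 2 *
          Real.exp (-Ph h f g k s t δ (ε m) w))) + 2 * volume (ball z r) := by
          rw [lintegral_add_right _ measurable_const, lintegral_const_mul' _ _
            ENNReal.ofReal_ne_top, setLIntegral_const]
      _ ≤ _ := by
          gcongr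
          exact hGi m
  have hBt : ENNReal.ofReal (2 * Real.exp Cc) * ENNReal.ofReal A + 2 * volume (ball z r) ≠ ⊤ := by
    refine ENNReal.add_ne_top.2 ⟨ENNReal.mul_ne_top ENNReal.ofReal_ne_top ENNReal.ofReal_ne_top,
      ENNReal.mul_ne_top (by norm_num) measure_ball_lt_top.ne⟩
  obtain ⟨ρ, hρ, hρr, hLip⟩ := exists_lip (n := n) hr hBt
  have hρV : ball z ρ ⊆ ball z r := ball_subset_ball hρr
  -- continuity
  have hPcont : ∀ m, ContinuousOn (fun w => ENNReal.ofReal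
      (Real.exp (-Ph h f g k s t δ (ε m) w))) V := fun m w hw => by
    have h1 : ContinuousAt (Ph h f g k s t δ (ε m)) w :=
      (Ph_cda hV hh hf hg hw (hε m) 0).continuousAt
    refine ContinuousAt.continuousWithinAt ?_
    exact ENNReal.continuous_ofReal.continuousAt.comp
      (Real.continuous_exp.continuousAt.comp h1.neg)
  -- a general estimate
  have key : ∀ (m : ℕ) (S : Set (Fin n → ℂ)), MeasurableSet S → S ⊆ ball z ρ →
      (∀ w ∈ S, 1 / 4 ≤ ‖G m w - (cut 0 (rh f g (ε m) w) : ℝ)‖) →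
      ∫⁻ w in S, ENNReal.ofReal (Real.exp (-Ph h f g k s t δ (ε m) w)) ≤
        ENNReal.ofReal (16 * A) := by
    intro m S hS hSr hS4
    calc ∫⁻ w in S, ENNReal.ofReal (Real.exp (-Ph h f g k s t δ (ε m) w))
        ≤ ∫⁻ w in S, ENNReal.ofReal 16 *
          ENNReal.ofReal (‖G m w - (cut 0 (rh f g (ε m) w) : ℝ)‖ ^ 2 *
          Real.exp (-Ph h f g k s t δ (ε m) w)) := by
          refine setLIntegral_mono' hS fun w hw => ?_
          rw [← ENNReal.ofReal_mul (by norm_num)]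
          refine ENNReal.ofReal_le_ofReal ?_
          have h1 : (1 : ℝ) ≤ 16 * ‖G m w - (cut 0 (rh f g (ε m) w) : ℝ)‖ ^ 2 := by
            have := pow_le_pow_left₀ (by norm_num) (hS4 w hw) 2
            linarith
          have := mul_le_mul_of_nonneg_right h1 (Real.exp_pos
            (-Ph h f g k s t δ (ε m) w)).le
          linarith
      _ = ENNReal.ofReal 16 * ∫⁻ w in S,
          ENNReal.ofReal (‖G m w - (cut 0 (rh f g (ε m) w) : ℝ)‖ ^ 2 *
          Real.exp (-Ph h f g k s t δ (ε m) w)) := lintegral_const_mul' _ _ ENNReal.ofReal_ne_top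
      _ ≤ ENNReal.ofReal 16 * ENNReal.ofReal A := by
          gcongr
          exact (lintegral_mono_set (hSr.trans hρV)).trans (hGi m)
      _ = _ := (ENNReal.ofReal_mul (by norm_num)).symm
  have hf0 : ContinuousOn (fun w => ‖f w‖) V := hf.continuousOn.norm
  have hg0 : ContinuousOn (fun w => ‖g w‖) V := hg.continuousOn.norm
  have hballV : ball z ρ ⊆ V := hρV.trans hbV
  -- measurability of sets
  have hmset : ∀ {u v : (Fin n → ℂ) → ℝ}, ContinuousOn u V → ContinuousOn v V →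
      MeasurableSet (ball z ρ ∩ {w | u w ≤ v w}) := by
    intro u v hu hv
    have h1 : IsOpen (ball z ρ ∩ {w | v w < u w}) := by
      have h2 : ContinuousOn (fun w => v w - u w) (ball z ρ) := (hv.sub hu).mono hballV
      have h3 := h2.isOpen_inter_preimage isOpen_ball (isOpen_Iio (a := (0 : ℝ)))
      convert h3 using 1
      ext w
      simp
    have h2 : ball z ρ ∩ {w | u w ≤ v w} = ball z ρ \ (ball z ρ ∩ {w | v w < u w}) := by
      ext w
      simp only [Set.mem_inter_iff, Set.mem_sdiff, Set.mem_ofPred_eq, not_and, not_lt]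
      constructor
      · rintro ⟨h1, h2⟩
        exact ⟨h1, fun _ => h2⟩
      · rintro ⟨h1, h2⟩
        exact ⟨h1, h2 h1⟩
    rw [h2]
    exact measurableSet_ball.diff h1.measurableSet
  have hfin : ENNReal.ofReal (Real.exp (2 * δ)) * ENNReal.ofReal (16 * A) < ⊤ :=
    ENNReal.mul_lt_top ENNReal.ofReal_lt_top ENNReal.ofReal_lt_top
  have hW : ∀ w ∈ ball z ρ, pw h k w * ‖f w‖ₑ ^ (-(2 * s)) * ‖g w‖ₑ ^ (-(2 * t)) ≤
      ENNReal.ofReal (Real.exp (2 * δ)) *
        ⨆ m, ENNReal.ofReal (Real.exp (-Ph h f g k s t δ (ε m) w)) := by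
    intro w hw
    have h1 := Ph_limit (h := h) (f := f) (g := g) (k := k) (w := w) hk hs ht hδ.le
      (hf1 w (hballV hw)) (hg1 w (hballV hw)) hε hε1 hlim
    calc _ = ENNReal.ofReal (Real.exp (2 * δ)) * (ENNReal.ofReal (Real.exp (-(2 * δ))) *
        (pw h k w * ‖f w‖ₑ ^ (-(2 * s)) * ‖g w‖ₑ ^ (-(2 * t)))) := by
          rw [← mul_assoc, ← ENNReal.ofReal_mul (Real.exp_pos _).le, ← Real.exp_add, add_neg_cancel,
            Real.exp_zero, ENNReal.ofReal_one, one_mul]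
      _ ≤ _ := by gcongr
  refine ⟨ρ, hρ, hρr, ?_⟩
  by_cases hcase : ∃ᶠ m in atTop, 1 / 2 ≤ ‖G m z‖
  · -- the functions `G m` are large near `z`
    right
    set R : Set (Fin n → ℂ) := ball z ρ ∩ {w | ‖f w‖ ≤ ‖g w‖} with hR
    have hRm : MeasurableSet R := hmset hf0 hg0
    have h1 : ∃ᶠ m in atTop, ∫⁻ w in R, ENNReal.ofReal
        (Real.exp (-Ph h f g k s t δ (ε m) w)) ≤ ENNReal.ofReal (16 * A) := by
      refine hcase.mono fun m hm => key m R hRm Set.inter_subset_left fun w hw => ?_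
      have h2 : -1 ≤ rh f g (ε m) w := by
        have h3 : lg f (ε m) w ≤ lg g (ε m) w := by
          unfold lg
          refine Real.log_le_log (lg_arg_pos (hε m) w) ?_
          have := pow_le_pow_left₀ (norm_nonneg _) hw.2 2
          linarith
        unfold rh
        linarith
      rw [cut_zero (by linarith), Complex.ofReal_zero, sub_zero]
      have h4 := hLip z (G m) (hG m) (hGB m) w hw.1
      have h5 := norm_sub_norm_le (G m z) (G m w)
      rw [norm_sub_rev] at h5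
      linarith
    have h2 : ∀ m, ∫⁻ w in R, ENNReal.ofReal
        (Real.exp (-Ph h f g k s t δ (ε m) w)) ≤ ENNReal.ofReal (16 * A) := by
      intro m
      obtain ⟨m', hm', hle⟩ := (frequently_atTop.1 h1) m
      refine le_trans (lintegral_mono fun w => ENNReal.ofReal_le_ofReal
        (Real.exp_le_exp.2 ?_)) hle
      have := Ph_mono (h := h) (f := f) (g := g) (k := k) (w := w) hk hs ht hδ.le (hε m')
        (hanti hm')
      linarith
    calc ∫⁻ w in R, pw h k w * ‖f w‖ₑ ^ (-(2 * s)) * ‖g w‖ₑ ^ (-(2 * t))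
        ≤ ∫⁻ w in R, ENNReal.ofReal (Real.exp (2 * δ)) *
          ⨆ m, ENNReal.ofReal (Real.exp (-Ph h f g k s t δ (ε m) w)) :=
          setLIntegral_mono' hRm fun w hw => hW w hw.1
      _ = ENNReal.ofReal (Real.exp (2 * δ)) * ∫⁻ w in R,
          ⨆ m, ENNReal.ofReal (Real.exp (-Ph h f g k s t δ (ε m) w)) :=
          lintegral_const_mul' _ _ ENNReal.ofReal_ne_top
      _ = ENNReal.ofReal (Real.exp (2 * δ)) * ⨆ m, ∫⁻ w in R,
          ENNReal.ofReal (Real.exp (-Ph h f g k s t δ (ε m) w)) := by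
          rw [lintegral_iSup' (fun m => ((hPcont m).mono
            (Set.inter_subset_left.trans hballV)).aemeasurable hRm)]
          refine Eventually.of_forall fun w m m' hm => ?_
          refine ENNReal.ofReal_le_ofReal (Real.exp_le_exp.2 ?_)
          have := Ph_mono (h := h) (f := f) (g := g) (k := k) (w := w) hk hs ht hδ.le (hε m')
            (hanti hm)
          linarith
      _ ≤ ENNReal.ofReal (Real.exp (2 * δ)) * ENNReal.ofReal (16 * A) := by
          gcongr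
          exact iSup_le h2
      _ < ⊤ := hfin
  · -- the functions `G m - 1` are large near `z`
    left
    rw [not_frequently] at hcase
    set S : ℕ → Set (Fin n → ℂ) := fun m => ball z ρ ∩ {w | rh f g (ε m) w ≤ -2} with hS
    have hSm : ∀ m, MeasurableSet (S m) := fun m =>
      hmset (fun w hw => ((rh_cda hV hf hg hw (hε m) 0).continuousAt).continuousWithinAt)
        continuousOn_const
    have hSiff : ∀ m w, rh f g (ε m) w ≤ -2 ↔
        Real.exp 2 * (‖g w‖ ^ 2 + ε m) ≤ ‖f w‖ ^ 2 + ε m := by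
      intro m w
      unfold rh lg
      rw [← Real.log_le_log_iff (by have := lg_arg_pos (f := g) (hε m) w; positivity)
        (lg_arg_pos (hε m) w), Real.log_mul (Real.exp_pos _).ne' (lg_arg_pos (hε m) w).ne',
        Real.log_exp]
      constructor <;> intro h <;> linarith
    have he2 : (1 : ℝ) ≤ Real.exp 2 := Real.one_le_exp (by norm_num)
    have hSmono : Monotone S := by
      intro m m' hm w hw
      refine ⟨hw.1, ?_⟩
      have h1 := (hSiff m w).1 hw.2
      refine (hSiff m' w).2 ?_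
      have h2 := mul_le_mul_of_nonneg_left (hanti hm) (sub_nonneg.2 he2)
      nlinarith
    have h1 : ∀ᶠ m in atTop, ∫⁻ w in S m, ENNReal.ofReal
        (Real.exp (-Ph h f g k s t δ (ε m) w)) ≤ ENNReal.ofReal (16 * A) := by
      filter_upwards [hcase] with m hm
      refine key m (S m) (hSm m) Set.inter_subset_left fun w hw => ?_
      rw [cut_one (by simpa using hw.2), Complex.ofReal_one]
      have h4 := hLip z (G m) (hG m) (hGB m) w hw.1
      rw [not_le] at hm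
      have h6 : (1 : ℝ) ≤ ‖G m w - 1‖ + ‖G m w - G m z‖ + ‖G m z‖ := by
        calc (1 : ℝ) = ‖(1 : ℂ)‖ := by simp
          _ = ‖-(G m w - 1) + (G m w - G m z) + G m z‖ := by congr 1; ring
          _ ≤ _ := (norm_add_le _ _).trans (add_le_add (norm_add_le _ _) le_rfl)
          _ = _ := by rw [norm_neg]
      linarith
    have hcompare : ∀ m m' : ℕ, m ≤ m' → ∫⁻ w in S m, ENNReal.ofReal
        (Real.exp (-Ph h f g k s t δ (ε m) w)) ≤ ∫⁻ w in S m', ENNReal.ofReal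
        (Real.exp (-Ph h f g k s t δ (ε m') w)) := by
      intro m m' hm
      refine (lintegral_mono_set (hSmono hm)).trans (lintegral_mono fun w => ?_)
      refine ENNReal.ofReal_le_ofReal (Real.exp_le_exp.2 ?_)
      have := Ph_mono (h := h) (f := f) (g := g) (k := k) (w := w) hk hs ht hδ.le (hε m')
        (hanti hm)
      linarith
    have h2 : ∀ m, ∫⁻ w in S m, ENNReal.ofReal
        (Real.exp (-Ph h f g k s t δ (ε m) w)) ≤ ENNReal.ofReal (16 * A) := by
      intro m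
      obtain ⟨m', hm', hle⟩ := (h1.and (eventually_ge_atTop m)).exists.imp fun a h => h
      exact (hcompare m m' hle).trans hm'
    -- rewrite the set as an increasing union
    set R : Set (Fin n → ℂ) := ball z ρ ∩ {w | Real.exp 1 * ‖g w‖ < ‖f w‖} with hR
    have hRS : ∀ w ∈ R, ∃ m, w ∈ S m := by
      intro w hw
      have h3 : Real.exp 2 * ‖g w‖ ^ 2 < ‖f w‖ ^ 2 := by
        have hw2 : Real.exp 1 * ‖g w‖ < ‖f w‖ := hw.2
        have h4 := pow_lt_pow_left₀ hw2 (by positivity) two_ne_zero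
        have h5 : Real.exp 2 = Real.exp 1 ^ 2 := by
          rw [← Real.exp_nat_mul]
          norm_num
        rw [h5]
        rwa [mul_pow] at h4
      have h6 : Tendsto (fun m => Real.exp 2 * (‖g w‖ ^ 2 + ε m) - ε m) atTop
          (𝓝 (Real.exp 2 * (‖g w‖ ^ 2 + 0) - 0)) :=
        ((hlim.const_add _).const_mul _).sub hlim
      rw [add_zero, sub_zero] at h6
      obtain ⟨m, hm⟩ := (h6.eventually_lt_const h3).exists
      exact ⟨m, hw.1, (hSiff m w).2 (by linarith)⟩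
    have hbound : ∫⁻ w in ball z ρ, ⨆ m, (S m).indicator (fun w => ENNReal.ofReal
        (Real.exp (-Ph h f g k s t δ (ε m) w))) w ≤ ENNReal.ofReal (16 * A) := by
      rw [lintegral_iSup']
      · refine iSup_le fun m => ?_
        rw [lintegral_indicator (hSm m), Measure.restrict_restrict (hSm m)]
        exact (lintegral_mono_set Set.inter_subset_left).trans (h2 m)
      · intro m
        refine AEMeasurable.indicator ?_ (hSm m)
        exact ((hPcont m).mono hballV).aemeasurable measurableSet_ball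
      · refine Eventually.of_forall fun w m m' hm => ?_
        simp only
        by_cases hw : w ∈ S m
        · rw [Set.indicator_of_mem hw, Set.indicator_of_mem (hSmono hm hw)]
          refine ENNReal.ofReal_le_ofReal (Real.exp_le_exp.2 ?_)
          have := Ph_mono (h := h) (f := f) (g := g) (k := k) (w := w) hk hs ht hδ.le (hε m')
            (hanti hm)
          linarith
        · rw [Set.indicator_of_notMem hw]
          exact zero_le
    have hRo : MeasurableSet R := by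
      have h2 : ContinuousOn (fun w => Real.exp 1 * ‖g w‖ - ‖f w‖) (ball z ρ) :=
        ((continuousOn_const.mul hg0).sub hf0).mono hballV
      have h3 := h2.isOpen_inter_preimage isOpen_ball (isOpen_Iio (a := (0 : ℝ)))
      have h4 : R = ball z ρ ∩ (fun w => Real.exp 1 * ‖g w‖ - ‖f w‖) ⁻¹' Set.Iio 0 := by
        ext w
        simp [hR]
      rw [h4]
      exact h3.measurableSet
    calc ∫⁻ w in R, pw h k w * ‖f w‖ₑ ^ (-(2 * s)) * ‖g w‖ₑ ^ (-(2 * t))
        ≤ ∫⁻ w in R, ENNReal.ofReal (Real.exp (2 * δ)) *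
          ⨆ m, (S m).indicator (fun w => ENNReal.ofReal
            (Real.exp (-Ph h f g k s t δ (ε m) w))) w := by
          refine setLIntegral_mono' hRo fun w hw =>
            (hW w hw.1).trans (mul_le_mul_right (iSup_le fun m => ?_) _)
          obtain ⟨m₀, hm₀⟩ := hRS w hw
          refine le_trans ?_ (le_iSup _ (max m m₀))
          rw [Set.indicator_of_mem (hSmono (le_max_right _ _) hm₀)]
          refine ENNReal.ofReal_le_ofReal (Real.exp_le_exp.2 ?_)
          have := Ph_mono (h := h) (f := f) (g := g) (k := k) (w := w) hk hs ht hδ.le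
            (hε (max m m₀)) (hanti (le_max_left m m₀))
          linarith
      _ ≤ ∫⁻ w in ball z ρ, ENNReal.ofReal (Real.exp (2 * δ)) *
          ⨆ m, (S m).indicator (fun w => ENNReal.ofReal
            (Real.exp (-Ph h f g k s t δ (ε m) w))) w := lintegral_mono_set Set.inter_subset_left
      _ = ENNReal.ofReal (Real.exp (2 * δ)) * ∫⁻ w in ball z ρ,
          ⨆ m, (S m).indicator (fun w => ENNReal.ofReal
            (Real.exp (-Ph h f g k s t δ (ε m) w))) w :=
          lintegral_const_mul' _ _ ENNReal.ofReal_ne_top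
      _ ≤ ENNReal.ofReal (Real.exp (2 * δ)) * ENNReal.ofReal (16 * A) := by gcongr
      _ < ⊤ := hfin

end Vale.Agent.P271.LOC
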