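import Mathlib

/-!
P271, block LOC (local theory): the function `e^φ`, `φ = max (1 / l_i) log |b_i|`, and the
non-integrability of `e^{-2cφ}` at a point.
-/

open MeasureTheory Filter Topology Metric
open scoped ENNReal NNReal

namespace Vale.Agent.P271.LOC

variable {X ι : Type*} [Fintype ι]

/-- `e^φ`, `φ = max_{l_i > 0} (1 / l_i) log |b_i|`. -/
noncomputable def mx (b : ι → X → ℂ) (l : ι → ℝ) (w : X) : ℝ≥0 :=
  Finset.univ.sup fun i => if 0 < l i then ‖b i w‖₊ ^ (l i)⁻¹ else 0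

/-- `e^{-2cφ}` is not integrable at `z`. -/
def NI [TopologicalSpace X] [MeasurableSpace X] (μ : Measure X) (b : ι → X → ℂ) (l : ι → ℝ)
    (c : ℝ) (z : X) : Prop :=
  ∀ U ∈ 𝓝 z, ∫⁻ w in U, (mx b l w : ℝ≥0∞) ^ (-(2 * c)) ∂μ = ⊤

variable {b b' : ι → X → ℂ} {l l' : ι → ℝ} {w : X}

theorem mx_lt {r : ℝ≥0} (hr : 0 < r) :
    mx b l w < r ↔ ∀ i, 0 < l i → ‖b i w‖₊ ^ (l i)⁻¹ < r := by
  unfold mx
  rw [Finset.sup_lt_iff (by simpa using hr)]
  constructor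
  · intro h i hi
    have := h i (Finset.mem_univ i)
    rwa [if_pos hi] at this
  · intro h i _
    by_cases hi : 0 < l i
    · rw [if_pos hi]
      exact h i hi
    · rw [if_neg hi]
      exact hr

theorem mx_le {r : ℝ≥0} :
    mx b l w ≤ r ↔ ∀ i, 0 < l i → ‖b i w‖₊ ^ (l i)⁻¹ ≤ r := by
  unfold mx
  rw [Finset.sup_le_iff]
  constructor
  · intro h i hi
    have := h i (Finset.mem_univ i)
    rwa [if_pos hi] at this
  · intro h i _
    by_cases hi : 0 < l i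
    · rw [if_pos hi]
      exact h i hi
    · rw [if_neg hi]
      exact zero_le

theorem le_mx {i : ι} (hi : 0 < l i) : ‖b i w‖₊ ^ (l i)⁻¹ ≤ mx b l w :=
  mx_le.1 le_rfl i hi

/-- The sublevel sets. -/
theorem mx_lt_exp {s : ℝ} :
    (mx b l w : ℝ) < Real.exp (-s) ↔ ∀ i, 0 < l i → ‖b i w‖ < Real.exp (-(s * l i)) := by
  obtain ⟨r, hr⟩ : ∃ r : ℝ≥0, (r : ℝ) = Real.exp (-s) :=
    ⟨(Real.exp (-s)).toNNReal, Real.coe_toNNReal _ (Real.exp_pos _).le⟩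
  have hr0 : 0 < r := by
    rw [← NNReal.coe_pos, hr]
    exact Real.exp_pos _
  rw [← hr, NNReal.coe_lt_coe, mx_lt hr0]
  refine forall_congr' fun i => imp_congr_right fun hi => ?_
  rw [← NNReal.coe_lt_coe, NNReal.coe_rpow, coe_nnnorm, hr,
    ← Real.rpow_lt_rpow_iff (x := ‖b i w‖ ^ (l i)⁻¹) (by positivity) (Real.exp_pos _).le hi,
    ← Real.rpow_mul (norm_nonneg _), inv_mul_cancel₀ hi.ne', Real.rpow_one, ← Real.exp_mul,
    neg_mul]

theorem mx_le_exp {s : ℝ} :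
    (mx b l w : ℝ) ≤ Real.exp (-s) ↔ ∀ i, 0 < l i → ‖b i w‖ ≤ Real.exp (-(s * l i)) := by
  obtain ⟨r, hr⟩ : ∃ r : ℝ≥0, (r : ℝ) = Real.exp (-s) :=
    ⟨(Real.exp (-s)).toNNReal, Real.coe_toNNReal _ (Real.exp_pos _).le⟩
  rw [← hr, NNReal.coe_le_coe, mx_le]
  refine forall_congr' fun i => imp_congr_right fun hi => ?_
  rw [← NNReal.coe_le_coe, NNReal.coe_rpow, coe_nnnorm, hr,
    ← Real.rpow_le_rpow_iff (x := ‖b i w‖ ^ (l i)⁻¹) (by positivity) (Real.exp_pos _).le hi,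
    ← Real.rpow_mul (norm_nonneg _), inv_mul_cancel₀ hi.ne', Real.rpow_one, ← Real.exp_mul,
    neg_mul]

theorem mx_eq_zero : mx b l w = 0 ↔ ∀ i, 0 < l i → b i w = 0 := by
  rw [← nonpos_iff_eq_zero, mx_le]
  refine forall_congr' fun i => imp_congr_right fun hi => ?_
  rw [nonpos_iff_eq_zero, NNReal.rpow_eq_zero_iff]
  simp [hi.ne']

/-- Homogeneity. -/
theorem mx_smul {t : ℝ} (ht : 0 < t) : mx b (fun i => t * l i) w = mx b l w ^ t⁻¹ := by
  refine le_antisymm ?_ ?_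
  · rw [mx_le]
    intro i hi
    have hi' : 0 < l i := (mul_pos_iff_of_pos_left ht).1 hi
    calc ‖b i w‖₊ ^ (t * l i)⁻¹ = (‖b i w‖₊ ^ (l i)⁻¹) ^ t⁻¹ := by
          rw [← NNReal.rpow_mul, mul_inv, mul_comm]
      _ ≤ mx b l w ^ t⁻¹ := NNReal.rpow_le_rpow (le_mx hi') (by positivity)
  · have h1 : mx b l w ≤ mx b (fun i => t * l i) w ^ t := by
      rw [mx_le]
      intro i hi
      have hi' : 0 < t * l i := mul_pos ht hi
      calc ‖b i w‖₊ ^ (l i)⁻¹ = (‖b i w‖₊ ^ (t * l i)⁻¹) ^ t := by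
            rw [← NNReal.rpow_mul]
            congr 1
            field_simp
        _ ≤ _ := NNReal.rpow_le_rpow (le_mx (l := fun i => t * l i) hi') ht.le
    calc mx b l w ^ t⁻¹ ≤ (mx b (fun i => t * l i) w ^ t) ^ t⁻¹ :=
          NNReal.rpow_le_rpow h1 (by positivity)
      _ = _ := by rw [← NNReal.rpow_mul, mul_inv_cancel₀ ht.ne', NNReal.rpow_one]

theorem rpow_neg_anti {x y : ℝ≥0∞} (h : x ≤ y) {t : ℝ} (ht : 0 ≤ t) : y ^ (-t) ≤ x ^ (-t) := by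
  rw [ENNReal.rpow_neg, ENNReal.rpow_neg]
  exact ENNReal.inv_le_inv.2 (ENNReal.rpow_le_rpow h ht)

theorem mul_rpow_neg {K : ℝ≥0} (hK : K ≠ 0) (x : ℝ≥0) {t : ℝ} (ht : 0 ≤ t) :
    (x : ℝ≥0∞) ^ (-t) = (K : ℝ≥0∞) ^ t * ((K : ℝ≥0∞) * x) ^ (-t) := by
  have hK1 : (K : ℝ≥0∞) ≠ 0 := by exact_mod_cast hK
  rw [ENNReal.rpow_neg (_ * _), ENNReal.mul_rpow_of_nonneg _ _ ht,
    ENNReal.mul_inv (Or.inl ?_) (Or.inl ?_), ← mul_assoc, ENNReal.mul_inv_cancel, one_mul,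
    ENNReal.rpow_neg]
  · exact (ENNReal.rpow_pos (pos_iff_ne_zero.2 hK1) ENNReal.coe_ne_top).ne'
  · exact ENNReal.rpow_ne_top_of_nonneg ht ENNReal.coe_ne_top
  · exact (ENNReal.rpow_pos (pos_iff_ne_zero.2 hK1) ENNReal.coe_ne_top).ne'
  · exact ENNReal.rpow_ne_top_of_nonneg ht ENNReal.coe_ne_top

section Meas

variable [TopologicalSpace X] [MeasurableSpace X] {μ : Measure X} {c c' : ℝ} {z : X}

/-- Homogeneity. -/
theorem NI_smul {t : ℝ} (ht : 0 < t) : NI μ b (fun i => t * l i) (t * c) z ↔ NI μ b l c z := by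
  unfold NI
  refine forall_congr' fun U => imp_congr_right fun _ => ?_
  have h : ∀ w, (mx b (fun i => t * l i) w : ℝ≥0∞) ^ (-(2 * (t * c))) =
      (mx b l w : ℝ≥0∞) ^ (-(2 * c)) := by
    intro w
    rw [mx_smul ht, ENNReal.coe_rpow_of_nonneg _ (inv_nonneg.2 ht.le), ← ENNReal.rpow_mul]
    congr 1
    field_simp
  simp only [h]

variable [OpensMeasurableSpace X]

/-- Comparison. -/
theorem NI.of_le (h : NI μ b l c z) {κ : Type*} [Fintype κ] {B : κ → X → ℂ} {L : κ → ℝ}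
    (hc : 0 ≤ c) {K : ℝ≥0} (hle : ∀ᶠ w in 𝓝 z, mx B L w ≤ K * mx b l w) : NI μ B L c z := by
  intro U hU
  obtain ⟨V, hVs, hVo, hzV⟩ := mem_nhds_iff.1 (inter_mem hU hle)
  have h1 := h V (hVo.mem_nhds hzV)
  set K' : ℝ≥0 := max K 1 with hK'
  have hK0 : (0 : ℝ≥0) < K' := lt_of_lt_of_le zero_lt_one (le_max_right _ _)
  have h2 : ∀ w ∈ V, (mx b l w : ℝ≥0∞) ^ (-(2 * c)) ≤
      (K' : ℝ≥0∞) ^ (2 * c) * (mx B L w : ℝ≥0∞) ^ (-(2 * c)) := by
    intro w hw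
    have h3 : mx B L w ≤ K' * mx b l w :=
      (hVs hw).2.trans (mul_le_mul_left (le_max_left _ _) _)
    have h4 : (mx B L w : ℝ≥0∞) ≤ K' * mx b l w := by exact_mod_cast h3
    rw [mul_rpow_neg hK0.ne' (mx b l w) (t := 2 * c) (by positivity)]
    exact mul_le_mul_right (rpow_neg_anti h4 (by positivity)) _
  have hKt : (K' : ℝ≥0∞) ^ (2 * c) ≠ ⊤ :=
    ENNReal.rpow_ne_top_of_nonneg (by positivity) ENNReal.coe_ne_top
  have h3 : (⊤ : ℝ≥0∞) ≤
      (K' : ℝ≥0∞) ^ (2 * c) * ∫⁻ w in V, (mx B L w : ℝ≥0∞) ^ (-(2 * c)) ∂μ := by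
    rw [← h1, ← lintegral_const_mul' _ _ hKt]
    exact setLIntegral_mono' hVo.measurableSet h2
  have h4 : ∫⁻ w in V, (mx B L w : ℝ≥0∞) ^ (-(2 * c)) ∂μ = ⊤ := by
    by_contra h5
    exact absurd h3 (not_le.2 (ENNReal.mul_lt_top hKt.lt_top (lt_top_iff_ne_top.2 h5)))
  rw [eq_top_iff, ← h4]
  exact lintegral_mono_set fun w hw => (hVs hw).1

theorem NI.mono (h : NI μ b l c z) (hcc : c ≤ c') (hle : ∀ᶠ w in 𝓝 z, mx b l w ≤ 1) :
    NI μ b l c' z := by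
  intro U hU
  obtain ⟨V, hVs, hVo, hzV⟩ := mem_nhds_iff.1 (inter_mem hU hle)
  rw [eq_top_iff, ← h V (hVo.mem_nhds hzV)]
  calc ∫⁻ w in V, (mx b l w : ℝ≥0∞) ^ (-(2 * c)) ∂μ
      ≤ ∫⁻ w in V, (mx b l w : ℝ≥0∞) ^ (-(2 * c')) ∂μ := by
        refine setLIntegral_mono' hVo.measurableSet fun w hw => ?_
        refine ENNReal.rpow_le_rpow_of_exponent_ge ?_ (by linarith)
        exact_mod_cast (hVs hw).2
    _ ≤ _ := lintegral_mono_set fun w hw => (hVs hw).1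

/-- The functions vanish at a point of non-integrability. -/
theorem NI.eq_zero [IsLocallyFiniteMeasure μ] (h : NI μ b l c z) (hc : 0 < c) {i : ι}
    (hi : 0 < l i) (hb : ContinuousAt (b i) z) : b i z = 0 := by
  by_contra h0
  have h1 : (0 : ℝ≥0) < ‖b i z‖₊ / 2 := by
    have : 0 < ‖b i z‖₊ := by simpa [pos_iff_ne_zero] using h0
    exact half_pos this
  have h2 : ∀ᶠ w in 𝓝 z, ‖b i z‖₊ / 2 < ‖b i w‖₊ := by
    have h3 : ContinuousAt (fun w => ‖b i w‖₊) z := hb.nnnorm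
    refine h3.eventually_const_lt ?_
    have : 0 < ‖b i z‖₊ := by simpa [pos_iff_ne_zero] using h0
    exact half_lt_self this
  obtain ⟨W, hW, hWt⟩ := μ.exists_isOpen_measure_lt_top z
  obtain ⟨V, hVs, hVo, hzV⟩ := mem_nhds_iff.1 (inter_mem (hWt.1.mem_nhds hW) h2)
  have h3 := h V (hVo.mem_nhds hzV)
  have h4 : ∫⁻ w in V, (mx b l w : ℝ≥0∞) ^ (-(2 * c)) ∂μ ≤
      ∫⁻ _ in V, (((‖b i z‖₊ / 2) ^ (l i)⁻¹ : ℝ≥0) : ℝ≥0∞) ^ (-(2 * c)) ∂μ := by
    refine setLIntegral_mono' hVo.measurableSet fun w hw => ?_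
    refine rpow_neg_anti ?_ (by positivity)
    have h5 : (‖b i z‖₊ / 2) ^ (l i)⁻¹ ≤ mx b l w :=
      (NNReal.rpow_le_rpow (hVs hw).2.le (by positivity)).trans (le_mx hi)
    exact_mod_cast h5
  rw [h3, setLIntegral_const, top_le_iff] at h4
  refine absurd h4 (ENNReal.mul_lt_top ?_ ?_).ne
  · rw [ENNReal.rpow_neg, ENNReal.inv_lt_top]
    refine ENNReal.rpow_pos ?_ ENNReal.coe_ne_top
    have : (0 : ℝ≥0) < (‖b i z‖₊ / 2) ^ (l i)⁻¹ := NNReal.rpow_pos h1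
    exact_mod_cast this
  · exact (measure_mono fun w hw => (hVs hw).1).trans_lt hWt.2

/-- Lower bounds for the volumes of the sublevel sets give non-integrability. -/
theorem NI_of_volume (hb : ∀ i, ∀ᶠ w in 𝓝 z, ContinuousAt (b i) w) (hc' : 0 ≤ c') (hcc : c < c')
    (h : ∀ U ∈ 𝓝 z, ∃ a : ℝ≥0∞, a ≠ 0 ∧ ∃ s₀ : ℝ, ∀ s ≥ s₀,
      a * ENNReal.ofReal (Real.exp (-(2 * c * s))) ≤
        μ {w ∈ U | (mx b l w : ℝ) < Real.exp (-s)}) : NI μ b l c' z := by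
  intro U hU
  have hb' : ∀ᶠ w in 𝓝 z, ∀ i, ContinuousAt (b i) w := Filter.eventually_all.2 hb
  obtain ⟨V, hVs, hVo, hzV⟩ := mem_nhds_iff.1 (inter_mem hU hb')
  obtain ⟨a, ha, s₀, has⟩ := h V (hVo.mem_nhds hzV)
  have hTo : ∀ s : ℝ, IsOpen {w ∈ V | (mx b l w : ℝ) < Real.exp (-s)} := by
    intro s
    have h1 : {w ∈ V | (mx b l w : ℝ) < Real.exp (-s)} =
        {w ∈ V | ∀ i, 0 < l i → ‖b i w‖ < Real.exp (-(s * l i))} := by
      ext w
      simp only [Set.mem_ofPred_eq, mx_lt_exp]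
    rw [h1, isOpen_iff_mem_nhds]
    rintro w ⟨hw, hwi⟩
    refine inter_mem (hVo.mem_nhds hw) ?_
    refine Filter.eventually_all.2 fun i => ?_
    by_cases hi : 0 < l i
    · filter_upwards [((hVs hw).2 i).norm.eventually_lt_const (hwi i hi)] with y hy _
      exact hy
    · exact Eventually.of_forall fun y h => absurd h hi
  have h2 : ∀ s ≥ s₀, a * ENNReal.ofReal (Real.exp (2 * (c' - c) * s)) ≤
      ∫⁻ w in U, (mx b l w : ℝ≥0∞) ^ (-(2 * c')) ∂μ := by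
    intro s hs
    have h3 : ∀ w ∈ {w ∈ V | (mx b l w : ℝ) < Real.exp (-s)},
        ENNReal.ofReal (Real.exp (2 * c' * s)) ≤ (mx b l w : ℝ≥0∞) ^ (-(2 * c')) := by
      rintro w ⟨_, hw⟩
      have h4 : (mx b l w : ℝ≥0∞) ≤ ENNReal.ofReal (Real.exp (-s)) := by
        rw [← ENNReal.ofReal_coe_nnreal]
        exact ENNReal.ofReal_le_ofReal hw.le
      refine le_trans (le_of_eq ?_) (rpow_neg_anti h4 (by positivity))
      rw [ENNReal.ofReal_rpow_of_pos (Real.exp_pos _), ← Real.exp_mul]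
      congr 2
      ring
    calc a * ENNReal.ofReal (Real.exp (2 * (c' - c) * s))
        = ENNReal.ofReal (Real.exp (2 * c' * s)) *
          (a * ENNReal.ofReal (Real.exp (-(2 * c * s)))) := by
          rw [mul_left_comm, ← ENNReal.ofReal_mul (Real.exp_pos _).le, ← Real.exp_add]
          congr 3
          ring
      _ ≤ ENNReal.ofReal (Real.exp (2 * c' * s)) *
          μ {w ∈ V | (mx b l w : ℝ) < Real.exp (-s)} := mul_le_mul_right (has s hs) _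
      _ = ∫⁻ w in {w ∈ V | (mx b l w : ℝ) < Real.exp (-s)},
          ENNReal.ofReal (Real.exp (2 * c' * s)) ∂μ := (setLIntegral_const _ _).symm
      _ ≤ ∫⁻ w in {w ∈ V | (mx b l w : ℝ) < Real.exp (-s)},
          (mx b l w : ℝ≥0∞) ^ (-(2 * c')) ∂μ :=
          setLIntegral_mono' (hTo s).measurableSet h3
      _ ≤ _ := lintegral_mono_set fun w hw => (hVs hw.1).1
  have h3 : Tendsto (fun s : ℝ => a * ENNReal.ofReal (Real.exp (2 * (c' - c) * s))) atTop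
      (𝓝 ⊤) := by
    have h4 : Tendsto (fun s : ℝ => ENNReal.ofReal (Real.exp (2 * (c' - c) * s))) atTop
        (𝓝 ⊤) := by
      refine ENNReal.tendsto_ofReal_atTop.comp (Real.tendsto_exp_atTop.comp ?_)
      exact tendsto_id.const_mul_atTop (by linarith)
    have h5 := ENNReal.Tendsto.const_mul (a := a) h4 (Or.inl ENNReal.top_ne_zero)
    rwa [ENNReal.mul_top ha] at h5
  exact top_le_iff.1 (le_of_tendsto h3 ((eventually_ge_atTop s₀).mono h2))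

end Meas

end Vale.Agent.P271.LOC
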