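import Vale.Agent.P271.H884.Psh

/-!
P271, block LOC: the regularisations `log (|f|² + ε)` and products of powers.
-/

open MeasureTheory Filter Topology Metric
open scoped ENNReal NNReal ComplexConjugate

namespace Vale.Agent.P271.LOC

open Vale.Agent.P282.L2 Vale.Agent.P271.Dom

variable {n : ℕ} {ι : Type*} [Fintype ι]

/-- `log (|f|² + ε)`. -/
noncomputable def lg (f : (Fin n → ℂ) → ℂ) (ε : ℝ) (w : Fin n → ℂ) : ℝ :=
  Real.log (‖f w‖ ^ 2 + ε)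

/-- `∑ k_i log (|h_i|² + ε)`. -/
noncomputable def bg (h : ι → (Fin n → ℂ) → ℂ) (k : ι → ℝ) (ε : ℝ) (w : Fin n → ℂ) : ℝ :=
  ∑ i, k i * lg (h i) ε w

/-- `∏ |h_i|^{-2k_i}`. -/
noncomputable def pw (h : ι → (Fin n → ℂ) → ℂ) (k : ι → ℝ) (w : Fin n → ℂ) : ℝ≥0∞ :=
  ∏ i, ‖h i w‖ₑ ^ (-(2 * k i))

variable {f : (Fin n → ℂ) → ℂ} {h : ι → (Fin n → ℂ) → ℂ} {k : ι → ℝ} {ε ε' : ℝ}
  {w : Fin n → ℂ} {V : Set (Fin n → ℂ)}

theorem lg_arg_pos (hε : 0 < ε) (w : Fin n → ℂ) : 0 < ‖f w‖ ^ 2 + ε := by positivity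

theorem lg_mono (hε : 0 < ε) (hεε : ε ≤ ε') : lg f ε w ≤ lg f ε' w :=
  Real.log_le_log (lg_arg_pos hε w) (by linarith)

theorem lg_cda (hV : IsOpen V) (hf : DifferentiableOn ℂ f V) (hw : w ∈ V) (hε : 0 < ε) (m : ℕ) :
    ContDiffAt ℝ m (lg f ε) w :=
  ContDiffAt.log ((normSq_cda hV hf hw m).add contDiffAt_const) (lg_arg_pos hε w).ne'

theorem lg_levi (hV : IsOpen V) (hf : DifferentiableOn ℂ f V) (hw : w ∈ V) (hε : 0 < ε)
    (β : Fin n → ℂ) : 0 ≤ leviF (lg f ε) β w := by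
  have h1 : leviF (lg f ε) β w = _ := leviF_log_normSq hV hf hw hε β
  rw [h1]
  positivity

theorem lg_le (hf1 : ‖f w‖ ≤ 1) (hε : 0 < ε) (hε1 : ε ≤ 1) : lg f ε w ≤ 1 := by
  unfold lg
  rw [Real.log_le_iff_le_exp (lg_arg_pos hε w)]
  have h1 := Real.add_one_le_exp (1 : ℝ)
  have h2 : ‖f w‖ ^ 2 ≤ 1 := pow_le_one₀ (norm_nonneg _) hf1
  linarith

theorem log_le_lg (hε : 0 < ε) : Real.log ε ≤ lg f ε w :=
  Real.log_le_log hε (by nlinarith [norm_nonneg (f w)])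

theorem bg_mono (hk : ∀ i, 0 ≤ k i) (hε : 0 < ε) (hεε : ε ≤ ε') : bg h k ε w ≤ bg h k ε' w :=
  Finset.sum_le_sum fun i _ => mul_le_mul_of_nonneg_left (lg_mono hε hεε) (hk i)

theorem bg_cda (hV : IsOpen V) (hh : ∀ i, DifferentiableOn ℂ (h i) V) (hw : w ∈ V) (hε : 0 < ε)
    (m : ℕ) : ContDiffAt ℝ m (bg h k ε) w :=
  ContDiffAt.sum fun i _ => contDiffAt_const.mul (lg_cda hV (hh i) hw hε m)

theorem bg_levi (hV : IsOpen V) (hh : ∀ i, DifferentiableOn ℂ (h i) V) (hk : ∀ i, 0 ≤ k i)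
    (hw : w ∈ V) (hε : 0 < ε) (β : Fin n → ℂ) : 0 ≤ leviF (bg h k ε) β w := by
  have h1 : leviF (bg h k ε) β w = ∑ i, leviF (fun w => k i * lg (h i) ε w) β w :=
    leviF_sum Finset.univ (fun i _ => contDiffAt_const.mul (lg_cda hV (hh i) hw hε 2)) β
  rw [h1]
  refine Finset.sum_nonneg fun i _ => ?_
  rw [leviF_const_mul (lg_cda hV (hh i) hw hε 2)]
  exact mul_nonneg (hk i) (lg_levi hV (hh i) hw hε β)

theorem bg_le (hk : ∀ i, 0 ≤ k i) (hh1 : ∀ i, ‖h i w‖ ≤ 1) (hε : 0 < ε) (hε1 : ε ≤ 1) :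
    bg h k ε w ≤ ∑ i, k i :=
  Finset.sum_le_sum fun i _ => by
    simpa using mul_le_mul_of_nonneg_left (lg_le (hh1 i) hε hε1) (hk i)

theorem le_bg (hk : ∀ i, 0 ≤ k i) (hε : 0 < ε) :
    (∑ i, k i) * Real.log ε ≤ bg h k ε w := by
  rw [Finset.sum_mul]
  exact Finset.sum_le_sum fun i _ => mul_le_mul_of_nonneg_left (log_le_lg hε) (hk i)

/-! ### Limits -/

/-- The regularised power. -/
theorem ex_tendsto {s : ℝ} (hs : 0 ≤ s) {ε : ℕ → ℝ} (hε : ∀ m, 0 < ε m)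
    (hlim : Tendsto ε atTop (𝓝 0)) (f : (Fin n → ℂ) → ℂ) (w : Fin n → ℂ) :
    Tendsto (fun m => ENNReal.ofReal (Real.exp (-(s * lg f (ε m) w)))) atTop
      (𝓝 (‖f w‖ₑ ^ (-(2 * s)))) := by
  rcases hs.eq_or_lt with rfl | hs
  · simp
  by_cases h0 : f w = 0
  · rw [h0, enorm_zero, ENNReal.zero_rpow_of_neg (by linarith)]
    refine ENNReal.tendsto_ofReal_atTop.comp (Real.tendsto_exp_atTop.comp ?_)
    have h1 : (fun m => -(s * lg f (ε m) w)) = fun m => s * -Real.log (ε m) := by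
      funext m
      simp only [lg, h0, norm_zero]
      ring_nf
    rw [h1]
    refine Tendsto.const_mul_atTop hs ?_
    rw [tendsto_neg_atTop_iff]
    refine Real.tendsto_log_nhdsGT_zero.comp ?_
    exact tendsto_nhdsWithin_iff.2 ⟨hlim, Eventually.of_forall fun m => hε m⟩
  · have hn : 0 < ‖f w‖ := norm_pos_iff.2 h0
    have h1 : ‖f w‖ₑ ^ (-(2 * s)) = ENNReal.ofReal (Real.exp (-(s * Real.log (‖f w‖ ^ 2 + 0)))) := by
      rw [← ofReal_norm_eq_enorm, ENNReal.ofReal_rpow_of_pos hn, Real.rpow_def_of_pos hn, add_zero,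
        Real.log_pow]
      congr 2
      push_cast
      ring
    rw [h1]
    refine (ENNReal.continuous_ofReal.tendsto _).comp ((Real.continuous_exp.tendsto _).comp ?_)
    refine (Tendsto.const_mul s ?_).neg
    refine (Real.continuousAt_log ?_).tendsto.comp (hlim.const_add _)
    positivity

theorem ex_le {s : ℝ} (hs : 0 ≤ s) (hε : 0 < ε) (f : (Fin n → ℂ) → ℂ) (w : Fin n → ℂ) :
    ENNReal.ofReal (Real.exp (-(s * lg f ε w))) ≤ ‖f w‖ₑ ^ (-(2 * s)) := by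
  have h1 := ex_tendsto hs (ε := fun m : ℕ => ε / (m + 1)) (fun m => by positivity)
    (by
      have := tendsto_one_div_add_atTop_nhds_zero_nat (𝕜 := ℝ)
      simpa [div_eq_mul_inv] using this.const_mul ε) f w
  refine ge_of_tendsto h1 (Eventually.of_forall fun m => ?_)
  refine ENNReal.ofReal_le_ofReal (Real.exp_le_exp.2 ?_)
  have h2 : lg f (ε / (m + 1)) w ≤ lg f ε w := by
    refine lg_mono (by positivity) ?_
    exact div_le_self hε.le (by linarith [(Nat.cast_nonneg m : (0 : ℝ) ≤ m)])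
  have := mul_le_mul_of_nonneg_left h2 hs
  linarith

theorem enorm_rpow_neg_ne_zero (x : ℂ) {s : ℝ} (hs : 0 ≤ s) : ‖x‖ₑ ^ (-(2 * s)) ≠ 0 := by
  rw [ENNReal.rpow_neg]
  exact ENNReal.inv_ne_zero.2 (ENNReal.rpow_ne_top_of_nonneg (by positivity) enorm_ne_top)

theorem pw_ne_zero (hk : ∀ i, 0 ≤ k i) : pw h k w ≠ 0 :=
  Finset.prod_ne_zero_iff.2 fun i _ => enorm_rpow_neg_ne_zero _ (hk i)

theorem prod_tendsto {a : ι → ℕ → ℝ≥0∞} {b : ι → ℝ≥0∞} (h : ∀ i, Tendsto (a i) atTop (𝓝 (b i)))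
    (hb : ∀ i, b i ≠ 0) (s : Finset ι) :
    Tendsto (fun m => ∏ i ∈ s, a i m) atTop (𝓝 (∏ i ∈ s, b i)) := by
  classical
  induction s using Finset.induction_on with
  | empty => simp
  | insert i s hi ih =>
    simp only [Finset.prod_insert hi]
    refine ENNReal.Tendsto.mul (h i) (Or.inl (hb i)) ih (Or.inl ?_)
    exact Finset.prod_ne_zero_iff.2 fun j _ => hb j

theorem exp_bg (ε : ℝ) (w : Fin n → ℂ) : ENNReal.ofReal (Real.exp (-bg h k ε w)) =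
    ∏ i, ENNReal.ofReal (Real.exp (-(k i * lg (h i) ε w))) := by
  rw [← ENNReal.ofReal_prod_of_nonneg fun i _ => (Real.exp_pos _).le, ← Real.exp_sum,
    Finset.sum_neg_distrib]
  rfl

theorem bg_tendsto (hk : ∀ i, 0 ≤ k i) {ε : ℕ → ℝ} (hε : ∀ m, 0 < ε m)
    (hlim : Tendsto ε atTop (𝓝 0)) (w : Fin n → ℂ) :
    Tendsto (fun m => ENNReal.ofReal (Real.exp (-bg h k (ε m) w))) atTop (𝓝 (pw h k w)) := by
  simp only [exp_bg]
  exact prod_tendsto (fun i => ex_tendsto (hk i) hε hlim (h i) w)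
    (fun i => enorm_rpow_neg_ne_zero _ (hk i)) _

theorem bg_exp_le (hk : ∀ i, 0 ≤ k i) (hε : 0 < ε) (w : Fin n → ℂ) :
    ENNReal.ofReal (Real.exp (-bg h k ε w)) ≤ pw h k w := by
  rw [exp_bg]
  exact Finset.prod_le_prod' fun i _ => ex_le (hk i) hε (h i) w

end Vale.Agent.P271.LOC
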