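import Vale.Agent.P271.LOC.Alt2
import Vale.Agent.P271.Zorn.LocInt

/-!
P271, block LOC: the two-function summation lemma (A4).
-/

open MeasureTheory Filter Topology Metric
open scoped ENNReal NNReal ComplexConjugate

namespace Vale.Agent.P271.LOC

open Vale.Agent.P282.L2 Vale.Agent.P271.Dom

variable {n : ℕ} {ι : Type*} [Fintype ι]

variable {h : ι → (Fin n → ℂ) → ℂ} {f g : (Fin n → ℂ) → ℂ} {V : Set (Fin n → ℂ)}
  {k : ι → ℝ} {s t δ ε ε' : ℝ} {w z : Fin n → ℂ}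

theorem pow_anti {x : ℂ} (hx : ‖x‖ ≤ 1) {a b : ℝ} (hab : a ≤ b) :
    ‖x‖ₑ ^ (-(2 * a)) ≤ ‖x‖ₑ ^ (-(2 * b)) := by
  refine ENNReal.rpow_le_rpow_of_exponent_ge ?_ (by linarith)
  rw [← ofReal_norm]
  exact ENNReal.ofReal_le_one.2 hx

theorem enorm_le_of_norm_le {x y : ℂ} (h : ‖x‖ ≤ ‖y‖) : ‖x‖ₑ ≤ ‖y‖ₑ := by
  rw [← ofReal_norm, ← ofReal_norm]
  exact ENNReal.ofReal_le_ofReal h

/-- On the strip `|f| ≤ e |g|`. -/
theorem strip_le {x y : ℂ} (hxy : ‖x‖ ≤ Real.exp 1 * ‖y‖) {b : ℝ} (hb : 0 ≤ b) :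
    ‖y‖ₑ ^ (-(2 * b)) ≤ ENNReal.ofReal (Real.exp (2 * b)) * ‖x‖ₑ ^ (-(2 * b)) := by
  have h1 : ‖x‖ₑ ≤ ENNReal.ofReal (Real.exp 1) * ‖y‖ₑ := by
    rw [← ofReal_norm, ← ofReal_norm, ← ENNReal.ofReal_mul (Real.exp_pos _).le]
    exact ENNReal.ofReal_le_ofReal hxy
  have hE0 : ENNReal.ofReal (Real.exp 1) ≠ 0 := (ENNReal.ofReal_pos.2 (Real.exp_pos _)).ne'
  have h2 : (ENNReal.ofReal (Real.exp 1) * ‖y‖ₑ) ^ (-(2 * b)) ≤ ‖x‖ₑ ^ (-(2 * b)) := by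
    rw [ENNReal.rpow_neg, ENNReal.rpow_neg]
    exact ENNReal.inv_le_inv.2 (ENNReal.rpow_le_rpow h1 (by positivity))
  have h3 : ENNReal.ofReal (Real.exp (2 * b)) = ENNReal.ofReal (Real.exp 1) ^ (2 * b) := by
    rw [ENNReal.ofReal_rpow_of_pos (Real.exp_pos _), ← Real.exp_mul, one_mul]
  have h4 : ‖y‖ₑ ^ (-(2 * b)) = ENNReal.ofReal (Real.exp 1) ^ (2 * b) *
      (ENNReal.ofReal (Real.exp 1) * ‖y‖ₑ) ^ (-(2 * b)) := by
    rw [ENNReal.rpow_neg (_ * _), ENNReal.mul_rpow_of_nonneg _ _ (by positivity),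
      ENNReal.mul_inv (Or.inl ?_) (Or.inl ?_), ← mul_assoc, ENNReal.mul_inv_cancel, one_mul,
      ENNReal.rpow_neg]
    · exact (ENNReal.rpow_pos (pos_iff_ne_zero.2 hE0) ENNReal.ofReal_ne_top).ne'
    · exact ENNReal.rpow_ne_top_of_nonneg (by positivity) ENNReal.ofReal_ne_top
    · exact (ENNReal.rpow_pos (pos_iff_ne_zero.2 hE0) ENNReal.ofReal_ne_top).ne'
    · exact ENNReal.rpow_ne_top_of_nonneg (by positivity) ENNReal.ofReal_ne_top
  rw [h4, h3]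
  gcongr

/-- The summation lemma for bounded functions. -/
theorem sum_normalized (hV : IsOpen V) (hzV : z ∈ V) (hh : ∀ i, DifferentiableOn ℂ (h i) V)
    (hf : DifferentiableOn ℂ f V) (hg : DifferentiableOn ℂ g V) (hk : ∀ i, 0 ≤ k i)
    (hh1 : ∀ w ∈ V, ∀ i, ‖h i w‖ ≤ 1) (hf1 : ∀ w ∈ V, ‖f w‖ ≤ 1) (hg1 : ∀ w ∈ V, ‖g w‖ ≤ 1)
    {K e : ℝ} (he : 0 < e) (heK : e ≤ K)
    (hint : Zorn.LI volume (𝓝 z) fun w => pw h k w * (max ‖f w‖ₑ ‖g w‖ₑ) ^ (-(2 * K))) :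
    ∃ K₁ K₂ : ℝ, 0 ≤ K₁ ∧ 0 ≤ K₂ ∧ K₁ + K₂ = K - e ∧
      Zorn.LI volume (𝓝 z) fun w => pw h k w * ‖f w‖ₑ ^ (-(2 * K₁)) * ‖g w‖ₑ ^ (-(2 * K₂)) := by
  obtain ⟨U, hU, hUint⟩ := hint
  obtain ⟨r, hr, hrU⟩ : ∃ r : ℝ, 0 < r ∧ closedBall z r ⊆ U ∩ V :=
    nhds_basis_closedBall.mem_iff.1 (inter_mem hU (hV.mem_nhds hzV))
  have hrV : closedBall z r ⊆ V := fun w hw => (hrU hw).2
  have hbV : ball z r ⊆ V := ball_subset_closedBall.trans hrV
  have hrint : ∫⁻ w in ball z r, pw h k w * (max ‖f w‖ₑ ‖g w‖ₑ) ^ (-(2 * K)) < ⊤ :=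
    (lintegral_mono_set (fun w hw => (hrU (ball_subset_closedBall hw)).1)).trans_lt hUint
  set c : ℝ := K - e / 2 with hc
  have hc0 : 0 < c := by
    rw [hc]
    linarith
  obtain ⟨N, hN⟩ : ∃ N : ℕ, 2 * c / e < N := exists_nat_gt _
  have hN0 : (0 : ℝ) < N := lt_trans (by positivity) hN
  set q : ℝ := c / N with hq
  have hq0 : 0 < q := by positivity
  have hqe : q ≤ e / 2 := by
    rw [hq, div_le_iff₀ hN0]
    rw [div_lt_iff₀ he] at hN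
    linarith
  have hNq : N * q = c := by
    rw [hq]
    field_simp
  set W : ℕ → (Fin n → ℂ) → ℝ≥0∞ := fun j w =>
    pw h k w * ‖f w‖ₑ ^ (-(2 * (j * q))) * ‖g w‖ₑ ^ (-(2 * (c - j * q))) with hW
  set good1 : ℕ → Prop := fun j => ∃ ρ : ℝ, 0 < ρ ∧ ρ ≤ r ∧
    ∫⁻ w in ball z ρ ∩ {w | Real.exp 1 * ‖g w‖ < ‖f w‖}, W j w < ⊤ with hgood1
  set good2 : ℕ → Prop := fun j => ∃ ρ : ℝ, 0 < ρ ∧ ρ ≤ r ∧
    ∫⁻ w in ball z ρ ∩ {w | ‖f w‖ ≤ ‖g w‖}, W j w < ⊤ with hgood2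
  have halt : ∀ j : ℕ, j ≤ N → good1 j ∨ good2 j := by
    intro j hj
    have hjq : (j : ℝ) * q ≤ c := by
      rw [← hNq]
      have : (j : ℝ) ≤ N := by exact_mod_cast hj
      gcongr
    obtain ⟨ρ, hρ, hρr, h1 | h1⟩ := alt (h := h) (f := f) (g := g) (k := k) (z := z)
      (s := j * q) (t := c - j * q) (δ := e / 2) hV hh hf hg hk (by positivity) (by linarith)
      (by positivity) hr hrV hh1 hf1 hg1 (by
        have h2 : j * q + (c - j * q) + e / 2 = K := by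
          rw [hc]
          ring
        rw [h2]
        exact hrint)
    · exact Or.inl ⟨ρ, hρ, hρr, h1⟩
    · exact Or.inr ⟨ρ, hρ, hρr, h1⟩
  have hf0 : ContinuousOn (fun w => ‖f w‖) V := hf.continuousOn.norm
  have hg0 : ContinuousOn (fun w => ‖g w‖) V := hg.continuousOn.norm
  -- measurability of the regions
  have hm1 : ∀ ρ ≤ r, ∀ a : ℝ, MeasurableSet (ball z ρ ∩ {w | a * ‖g w‖ < ‖f w‖}) := by
    intro ρ hρ a
    have h2 : ContinuousOn (fun w => a * ‖g w‖ - ‖f w‖) (ball z ρ) :=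
      ((continuousOn_const.mul hg0).sub hf0).mono ((ball_subset_ball hρ).trans hbV)
    have h3 := h2.isOpen_inter_preimage isOpen_ball (isOpen_Iio (a := (0 : ℝ)))
    have h4 : ball z ρ ∩ {w | a * ‖g w‖ < ‖f w‖} =
        ball z ρ ∩ (fun w => a * ‖g w‖ - ‖f w‖) ⁻¹' Set.Iio 0 := by
      ext w
      simp
    rw [h4]
    exact h3.measurableSet
  have hm2 : ∀ ρ ≤ r, MeasurableSet (ball z ρ ∩ {w | ‖f w‖ ≤ ‖g w‖}) := by
    intro ρ hρ
    have h2 : ball z ρ ∩ {w | ‖f w‖ ≤ ‖g w‖} =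
        ball z ρ \ (ball z ρ ∩ {w | 1 * ‖g w‖ < ‖f w‖}) := by
      ext w
      simp only [Set.mem_inter_iff, Set.mem_sdiff, Set.mem_ofPred_eq, not_and, not_lt, one_mul]
      constructor
      · rintro ⟨h1, h2⟩
        exact ⟨h1, fun _ => h2⟩
      · rintro ⟨h1, h2⟩
        exact ⟨h1, h2 h1⟩
    rw [h2]
    exact measurableSet_ball.diff (hm1 ρ hρ 1)
  have hmaxf : ∀ w, ‖g w‖ ≤ ‖f w‖ → max ‖f w‖ₑ ‖g w‖ₑ = ‖f w‖ₑ := fun w hw =>
    max_eq_left (enorm_le_of_norm_le hw)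
  have hmaxg : ∀ w, ‖f w‖ ≤ ‖g w‖ → max ‖f w‖ₑ ‖g w‖ₑ = ‖g w‖ₑ := fun w hw =>
    max_eq_right (enorm_le_of_norm_le hw)
  have he1 : (1 : ℝ) ≤ Real.exp 1 := Real.one_le_exp (by norm_num)
  have hgN : good1 N := by
    refine ⟨r, hr, le_rfl, lt_of_le_of_lt ?_ hrint⟩
    refine le_trans (setLIntegral_mono' (hm1 r le_rfl _) fun w hw => ?_)
      (lintegral_mono_set Set.inter_subset_left)
    have hw2 : Real.exp 1 * ‖g w‖ < ‖f w‖ := hw.2
    have h1 : ‖g w‖ ≤ ‖f w‖ := by nlinarith [norm_nonneg (g w)]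
    rw [hmaxf w h1]
    simp only [hW]
    rw [hNq, sub_self, mul_zero, neg_zero, ENNReal.rpow_zero, mul_one]
    exact mul_le_mul' le_rfl (pow_anti (hf1 w (hbV hw.1)) (by linarith))
  have hg0' : good2 0 := by
    refine ⟨r, hr, le_rfl, lt_of_le_of_lt ?_ hrint⟩
    refine le_trans (setLIntegral_mono' (hm2 r le_rfl) fun w hw => ?_)
      (lintegral_mono_set Set.inter_subset_left)
    have hw2 : ‖f w‖ ≤ ‖g w‖ := hw.2
    rw [hmaxg w hw2]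
    simp only [hW]
    rw [Nat.cast_zero, zero_mul, mul_zero, neg_zero, ENNReal.rpow_zero, mul_one, sub_zero]
    exact mul_le_mul' le_rfl (pow_anti (hg1 w (hbV hw.1)) (by linarith))
  -- the crossing
  obtain ⟨ja, jb, hab, hba, hjaN, hga, hgb⟩ : ∃ ja jb : ℕ, jb ≤ ja ∧ ja ≤ jb + 1 ∧ ja ≤ N ∧
      good1 ja ∧ good2 jb := by
    classical
    have hex : ∃ j, good1 j := ⟨N, hgN⟩
    set j := Nat.find hex with hj
    have h1 : good1 j := Nat.find_spec hex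
    have h2 : j ≤ N := Nat.find_min' hex hgN
    rcases Nat.eq_zero_or_pos j with h0 | h0
    · refine ⟨0, 0, le_rfl, by omega, by omega, ?_, hg0'⟩
      rw [← h0]
      exact h1
    · refine ⟨j, j - 1, by omega, by omega, h2, h1, ?_⟩
      have h3 : ¬ good1 (j - 1) := Nat.find_min hex (by omega)
      exact (halt (j - 1) (by omega)).resolve_left h3
  have hjaq : (ja : ℝ) * q ≤ c := by
    rw [← hNq]
    have : (ja : ℝ) ≤ N := by exact_mod_cast hjaN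
    gcongr
  have hjab : (jb : ℝ) * q ≤ ja * q := by
    have : (jb : ℝ) ≤ ja := by exact_mod_cast hab
    gcongr
  have hjba : (ja : ℝ) * q ≤ jb * q + q := by
    have : (ja : ℝ) ≤ jb + 1 := by exact_mod_cast hba
    nlinarith
  set K1 : ℝ := jb * q with hK1
  set K2 : ℝ := c - ja * q with hK2
  have hK10 : 0 ≤ K1 := by positivity
  have hK20 : 0 ≤ K2 := by linarith
  have hKK : K - e ≤ K1 + K2 := by
    rw [hK2, hc]
    linarith
  have hKK' : K1 + K2 ≤ K := by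
    rw [hK2, hc]
    linarith
  have hmain : Zorn.LI volume (𝓝 z) fun w =>
      pw h k w * ‖f w‖ₑ ^ (-(2 * K1)) * ‖g w‖ₑ ^ (-(2 * K2)) := by
    obtain ⟨ρa, hρa, hρar, hIa⟩ := hga
    obtain ⟨ρb, hρb, hρbr, hIb⟩ := hgb
    set ρ : ℝ := min ρa ρb with hρ
    have hρ0 : 0 < ρ := lt_min hρa hρb
    have hρr : ρ ≤ r := (min_le_left _ _).trans hρar
    refine ⟨ball z ρ, ball_mem_nhds z hρ0, ?_⟩
    set R1 := ball z ρ ∩ {w | Real.exp 1 * ‖g w‖ < ‖f w‖} with hR1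
    set R2 := ball z ρ ∩ {w | ‖f w‖ ≤ ‖g w‖} with hR2
    set R3 := (ball z ρ ∩ {w | 1 * ‖g w‖ < ‖f w‖}) \ R1 with hR3
    have hcov : ball z ρ ⊆ (R1 ∪ R2) ∪ R3 := by
      intro w hw
      by_cases h1 : ‖f w‖ ≤ ‖g w‖
      · exact Or.inl (Or.inr ⟨hw, h1⟩)
      · by_cases h2 : Real.exp 1 * ‖g w‖ < ‖f w‖
        · exact Or.inl (Or.inl ⟨hw, h2⟩)
        · refine Or.inr ⟨⟨hw, ?_⟩, fun h => h2 h.2⟩
          show 1 * ‖g w‖ < ‖f w‖
          rw [one_mul]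
          exact not_le.1 h1
    have hball : ∀ w ∈ ball z ρ, w ∈ V := fun w hw => hbV (ball_subset_ball hρr hw)
    have i1 : ∫⁻ w in R1, pw h k w * ‖f w‖ₑ ^ (-(2 * K1)) * ‖g w‖ₑ ^ (-(2 * K2)) < ⊤ := by
      refine lt_of_le_of_lt (setLIntegral_mono' (hm1 ρ hρr _) fun w hw => ?_)
        (lt_of_le_of_lt (lintegral_mono_set (Set.inter_subset_inter_left _
          (ball_subset_ball (min_le_left _ _)))) hIa)
      simp only [hW]
      exact mul_le_mul' (mul_le_mul' le_rfl (pow_anti (hf1 w (hball w hw.1)) hjab)) le_rfl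
    have i2 : ∫⁻ w in R2, pw h k w * ‖f w‖ₑ ^ (-(2 * K1)) * ‖g w‖ₑ ^ (-(2 * K2)) < ⊤ := by
      refine lt_of_le_of_lt (setLIntegral_mono' (hm2 ρ hρr) fun w hw => ?_)
        (lt_of_le_of_lt (lintegral_mono_set (Set.inter_subset_inter_left _
          (ball_subset_ball (min_le_right _ _)))) hIb)
      simp only [hW]
      exact mul_le_mul' le_rfl (pow_anti (hg1 w (hball w hw.1)) (by linarith))
    have i3 : ∫⁻ w in R3, pw h k w * ‖f w‖ₑ ^ (-(2 * K1)) * ‖g w‖ₑ ^ (-(2 * K2)) < ⊤ := by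
      have hE : ENNReal.ofReal (Real.exp (2 * K2)) ≠ ⊤ := ENNReal.ofReal_ne_top
      refine lt_of_le_of_lt ?_ (ENNReal.mul_lt_top hE.lt_top hrint)
      rw [← lintegral_const_mul' _ _ hE]
      refine le_trans (setLIntegral_mono' ((hm1 ρ hρr 1).diff (hm1 ρ hρr _)) fun w hw => ?_)
        (lintegral_mono_set (Set.sdiff_subset.trans (Set.inter_subset_left.trans
          (ball_subset_ball hρr))))
      have hwb : w ∈ ball z ρ := hw.1.1
      have hw1 : ‖g w‖ < ‖f w‖ := by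
        have h2 : 1 * ‖g w‖ < ‖f w‖ := hw.1.2
        rwa [one_mul] at h2
      have hw2 : ‖f w‖ ≤ Real.exp 1 * ‖g w‖ := by
        by_contra h2
        exact hw.2 ⟨hwb, not_le.1 h2⟩
      rw [hmaxf w hw1.le]
      have hf00 : f w ≠ 0 := by
        intro h0
        rw [h0, norm_zero] at hw1
        exact absurd hw1 (not_lt.2 (norm_nonneg _))
      have hfe0 : ‖f w‖ₑ ≠ 0 := by simpa using hf00
      calc pw h k w * ‖f w‖ₑ ^ (-(2 * K1)) * ‖g w‖ₑ ^ (-(2 * K2))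
          ≤ pw h k w * ‖f w‖ₑ ^ (-(2 * K1)) *
            (ENNReal.ofReal (Real.exp (2 * K2)) * ‖f w‖ₑ ^ (-(2 * K2))) := by
            gcongr
            exact strip_le hw2 hK20
        _ = ENNReal.ofReal (Real.exp (2 * K2)) * (pw h k w * ‖f w‖ₑ ^ (-(2 * (K1 + K2)))) := by
            rw [show -(2 * (K1 + K2)) = -(2 * K1) + -(2 * K2) by ring,
              ENNReal.rpow_add _ _ hfe0 enorm_ne_top]
            ring
        _ ≤ ENNReal.ofReal (Real.exp (2 * K2)) * (pw h k w * ‖f w‖ₑ ^ (-(2 * K))) := by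
            exact mul_le_mul' le_rfl (mul_le_mul' le_rfl
              (pow_anti (hf1 w (hball w hwb)) hKK'))
    refine lt_of_le_of_lt (lintegral_mono_set hcov) ?_
    refine lt_of_le_of_lt (lintegral_union_le _ _ _) ?_
    refine ENNReal.add_lt_top.2 ⟨?_, i3⟩
    exact lt_of_le_of_lt (lintegral_union_le _ _ _) (ENNReal.add_lt_top.2 ⟨i1, i2⟩)
  -- adjust the sum
  obtain ⟨θ, hθ0, hθ1, hθ⟩ : ∃ θ : ℝ, 0 ≤ θ ∧ θ ≤ 1 ∧ θ * (K1 + K2) = K - e := by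
    rcases (add_nonneg hK10 hK20).eq_or_lt with h0 | h0
    · exact ⟨0, le_rfl, zero_le_one, by linarith⟩
    · refine ⟨(K - e) / (K1 + K2), div_nonneg (by linarith) h0.le, ?_, ?_⟩
      · rw [div_le_one h0]
        exact hKK
      · field_simp
  refine ⟨θ * K1, θ * K2, by positivity, by positivity, by linarith, ?_⟩
  obtain ⟨U', hU', hI'⟩ := hmain
  obtain ⟨ρ', hρ', hsub⟩ := Metric.mem_nhds_iff.1 (inter_mem hU' (hV.mem_nhds hzV))
  refine ⟨ball z ρ', ball_mem_nhds z hρ', lt_of_le_of_lt (setLIntegral_mono' measurableSet_ball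
    fun w hw => ?_) (lt_of_le_of_lt (lintegral_mono_set fun w hw => (hsub hw).1) hI')⟩
  have hwV := (hsub hw).2
  exact mul_le_mul' (mul_le_mul' le_rfl (pow_anti (hf1 w hwV) (by nlinarith)))
    (pow_anti (hg1 w hwV) (by nlinarith))

end Vale.Agent.P271.LOC
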