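import Vale.Agent.P271.LOC.Sum

/-!
P271, block LOC: (A4) for the concrete exponent sets of `Zorn/LocInt.lean`.
-/

open MeasureTheory Filter Topology Metric
open scoped ENNReal NNReal ComplexConjugate

namespace Vale.Agent.P271.LOC

open Vale.Agent.P282.L2 Vale.Agent.P271.Dom

variable {n : ℕ}

theorem enorm_rpow_eq {x : ℂ} (hx : x ≠ 0) (a : ℝ) :
    ‖x‖ₑ ^ (-(2 * a)) = ENNReal.ofReal (Real.exp (-2 * (a * Real.log ‖x‖))) := by
  have hn : 0 < ‖x‖ := norm_pos_iff.2 hx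
  rw [← ofReal_norm, ENNReal.ofReal_rpow_of_pos hn, Real.rpow_def_of_pos hn]
  congr 2
  ring

theorem bas_nhds (z : Fin n → ℂ) : Zorn.Bas (volume : Measure (Fin n → ℂ)) (𝓝 z) := by
  intro U hU
  obtain ⟨V, hVU, hV, hz⟩ := _root_.mem_nhds_iff.1 hU
  exact ⟨V, hV.mem_nhds hz, hVU, hV.measurableSet.nullMeasurableSet⟩

/-- Bounded holomorphic representatives near a point. -/
theorem exists_ball_holo {κ : Type*} [Finite κ] {F : κ → (Fin n → ℂ) → ℂ} {z : Fin n → ℂ}
    (hF : ∀ i, ∃ V ∈ 𝓝 z, DifferentiableOn ℂ (F i) V) :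
    ∃ r : ℝ, 0 < r ∧ ∃ M : ℝ, 1 ≤ M ∧ ∀ i, DifferentiableOn ℂ (F i) (ball z r) ∧
      ∀ w ∈ ball z r, ‖F i w‖ ≤ M := by
  classical
  cases nonempty_fintype κ
  choose V hV hd using hF
  obtain ⟨r, hr, hrV⟩ := nhds_basis_closedBall.mem_iff.1 (Filter.iInter_mem.2 hV)
  have h1 : ∀ i, ∃ C : ℝ, ∀ w ∈ closedBall z r, ‖F i w‖ ≤ C := fun i =>
    (isCompact_closedBall z r).exists_bound_of_continuousOn
      ((hd i).continuousOn.mono (hrV.trans (Set.iInter_subset _ i)))
  choose C hC using h1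
  refine ⟨r, hr, 1 + ∑ i, |C i|, by
    have : 0 ≤ ∑ i, |C i| := Finset.sum_nonneg fun i _ => abs_nonneg _
    linarith, fun i => ⟨(hd i).mono (ball_subset_closedBall.trans
      (hrV.trans (Set.iInter_subset _ i))), fun w hw => ?_⟩⟩
  have h2 := hC i w (ball_subset_closedBall hw)
  have h3 : |C i| ≤ ∑ i, |C i| :=
    Finset.single_le_sum (f := fun i => |C i|) (fun i _ => abs_nonneg _) (Finset.mem_univ i)
  have h4 := le_abs_self (C i)
  linarith

open Finsupp in
/-- (A4) -/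
theorem sum_PP {H : Type*} {ev : H → (Fin n → ℂ) → ℂ} {z : Fin n → ℂ}
    (hol : ∀ f, ∃ V ∈ 𝓝 z, DifferentiableOn ℂ (ev f) V)
    (hne : ∀ f, ∀ᶠ x in 𝓝 z ⊓ ae (volume : Measure (Fin n → ℂ)), ev f x ≠ 0)
    {k : H →₀ ℝ} (hk : ∀ x, 0 ≤ k x) {f g s : H}
    (hs : ∀ᶠ x in 𝓝 z ⊓ ae (volume : Measure (Fin n → ℂ)), ev s x = ev f x + ev g x)
    {K e : ℝ} (he : 0 < e) (heK : e ≤ K)
    (hP : k + single s K ∈ Zorn.PP volume (𝓝 z) ev) :
    ∃ K₁ K₂ : ℝ, 0 ≤ K₁ ∧ 0 ≤ K₂ ∧ K₁ + K₂ = K - e ∧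
      k + single f K₁ + single g K₂ ∈ Zorn.PP volume (𝓝 z) ev := by
  classical
  have hK0 : 0 ≤ K := by linarith
  obtain ⟨r, hr, M, hM, hFM⟩ := exists_ball_holo (z := z)
    (F := fun i : Option (Option k.support) => ev (i.elim f fun i => i.elim g fun i => i))
    (fun i => hol _)
  have hM0 : 0 < M := by linarith
  have hf := hFM none
  have hg := hFM (some none)
  have hh := fun i : k.support => hFM (some (some i))
  simp only [Option.elim_none, Option.elim_some] at hf hg hh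
  set f' : (Fin n → ℂ) → ℂ := fun w => ev f w / M with hf'
  set g' : (Fin n → ℂ) → ℂ := fun w => ev g w / M with hg'
  set h' : k.support → (Fin n → ℂ) → ℂ := fun i w => ev i w / M with hh'
  set k' : k.support → ℝ := fun i => k i with hk'
  have hMc : (M : ℂ) ≠ 0 := by exact_mod_cast hM0.ne'
  have hnorm : ∀ x : ℂ, ‖x / M‖ = ‖x‖ / M := fun x => by
    rw [norm_div, Complex.norm_real, Real.norm_eq_abs, abs_of_pos hM0]
  have hle1 : ∀ x : ℂ, ‖x‖ ≤ M → ‖x / M‖ ≤ 1 := fun x hx => by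
    rw [hnorm, div_le_one hM0]
    exact hx
  have hlogM : 0 ≤ Real.log M := Real.log_nonneg hM
  -- all the functions do not vanish almost everywhere
  have hnz : ∀ᶠ x in 𝓝 z ⊓ ae (volume : Measure (Fin n → ℂ)), ∀ i ∈ k.support, ev i x ≠ 0 :=
    (Filter.eventually_all_finset _).mpr fun i _ => hne i
  have hpw : ∀ x, (∀ i ∈ k.support, ev i x ≠ 0) → pw h' k' x =
      ENNReal.ofReal (Real.exp (-2 * (Zorn.lg ev k x - (∑ i ∈ k.support, k i) * Real.log M))) := by
    intro x hx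
    unfold pw
    have h1 : ∀ i : k.support, ‖h' i x‖ₑ ^ (-(2 * k' i)) = ENNReal.ofReal
        (Real.exp (-2 * (k i * (Real.log ‖ev i x‖ - Real.log M)))) := by
      intro i
      have h2 : h' i x ≠ 0 := div_ne_zero (hx i i.2) hMc
      rw [enorm_rpow_eq h2]
      simp only [hh', hk']
      rw [hnorm, Real.log_div (norm_ne_zero_iff.2 (hx i i.2)) hM0.ne']
    simp only [h1]
    rw [← ENNReal.ofReal_prod_of_nonneg fun i _ => (Real.exp_pos _).le, ← Real.exp_sum,
      Finset.sum_coe_sort k.support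
        (fun i => -2 * (k i * (Real.log ‖ev i x‖ - Real.log M)))]
    congr 2
    rw [← Finset.mul_sum]
    congr 1
    unfold Zorn.lg
    rw [Zorn.pair_def, Finset.sum_mul, ← Finset.sum_sub_distrib]
    exact Finset.sum_congr rfl fun i _ => by ring
  set S : ℝ := ∑ i ∈ k.support, k i with hS
  have hS0 : 0 ≤ S := Finset.sum_nonneg fun i _ => hk i
  -- the hypothesis
  have hint : Zorn.LI volume (𝓝 z) fun w =>
      pw h' k' w * (max ‖f' w‖ₑ ‖g' w‖ₑ) ^ (-(2 * K)) := by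
    refine Zorn.LI.mono (bas_nhds z) ?_ (Zorn.LI.const_mul (C := ENNReal.ofReal
      (Real.exp (2 * (S * Real.log M + K * Real.log (2 * M))))) ENNReal.ofReal_ne_top hP)
    filter_upwards [hs, hnz, hne s] with x hxs hxn hxs0
    rw [hpw x hxn]
    have h1 : ‖ev s x / (2 * M)‖ₑ ≤ max ‖f' x‖ₑ ‖g' x‖ₑ := by
      have h2 : ‖ev s x / (2 * M)‖ ≤ max ‖f' x‖ ‖g' x‖ := by
        have h3 : ev s x / (2 * M) = (f' x + g' x) / 2 := by
          simp only [hf', hg', hxs]
          field_simp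
        rw [h3, norm_div, Complex.norm_ofNat]
        have h4 := norm_add_le (f' x) (g' x)
        have h5 := le_max_left ‖f' x‖ ‖g' x‖
        have h6 := le_max_right ‖f' x‖ ‖g' x‖
        linarith
      rcases le_total ‖f' x‖ ‖g' x‖ with h3 | h3
      · rw [max_eq_right h3] at h2
        exact (enorm_le_of_norm_le h2).trans (le_max_right _ _)
      · rw [max_eq_left h3] at h2
        exact (enorm_le_of_norm_le h2).trans (le_max_left _ _)
    have h2M : (0 : ℝ) < 2 * M := by positivity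
    have h3 : (max ‖f' x‖ₑ ‖g' x‖ₑ) ^ (-(2 * K)) ≤ ENNReal.ofReal
        (Real.exp (-2 * (K * (Real.log ‖ev s x‖ - Real.log (2 * M))))) := by
      have h4 : ev s x / (2 * M) ≠ 0 := div_ne_zero hxs0 (by
        exact mul_ne_zero two_ne_zero hMc)
      calc (max ‖f' x‖ₑ ‖g' x‖ₑ) ^ (-(2 * K)) ≤ ‖ev s x / (2 * M)‖ₑ ^ (-(2 * K)) := by
            rw [ENNReal.rpow_neg, ENNReal.rpow_neg]
            exact ENNReal.inv_le_inv.2 (ENNReal.rpow_le_rpow h1 (by positivity))
        _ = _ := by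
            rw [enorm_rpow_eq h4]
            have h5 : ‖ev s x / (2 * (M : ℂ))‖ = ‖ev s x‖ / (2 * M) := by
              rw [norm_div]
              congr 1
              rw [norm_mul, Complex.norm_real, Real.norm_eq_abs, abs_of_pos hM0,
                Complex.norm_ofNat]
            rw [h5, Real.log_div (norm_ne_zero_iff.2 hxs0) h2M.ne']
    refine (mul_le_mul' le_rfl h3).trans ?_
    unfold Zorn.wt
    rw [← ENNReal.ofReal_mul (Real.exp_pos _).le, ← ENNReal.ofReal_mul (Real.exp_pos _).le,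
      ← Real.exp_add, ← Real.exp_add, Zorn.lg_add, Zorn.lg_single]
    refine ENNReal.ofReal_le_ofReal (Real.exp_le_exp.2 (le_of_eq ?_))
    ring
  have hdc : ∀ F : (Fin n → ℂ) → ℂ, DifferentiableOn ℂ F (ball z r) →
      DifferentiableOn ℂ (fun w => F w / (M : ℂ)) (ball z r) := by
    intro F hF
    simp only [div_eq_mul_inv]
    exact hF.mul_const _
  have hfd : DifferentiableOn ℂ f' (ball z r) := hdc _ hf.1
  have hgd : DifferentiableOn ℂ g' (ball z r) := hdc _ hg.1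
  have hhd : ∀ i, DifferentiableOn ℂ (h' i) (ball z r) := fun i => hdc _ (hh i).1
  obtain ⟨K₁, K₂, h1, h2, h3, h4⟩ := sum_normalized (h := h') (f := f') (g := g') (k := k')
    (z := z) (V := ball z r) isOpen_ball (mem_ball_self hr)
    hhd hfd hgd (fun i => hk i)
    (fun w hw i => hle1 _ ((hh i).2 w hw)) (fun w hw => hle1 _ (hf.2 w hw))
    (fun w hw => hle1 _ (hg.2 w hw)) he heK hint
  refine ⟨K₁, K₂, h1, h2, h3, Zorn.LI.mono (bas_nhds z) ?_ h4⟩
  filter_upwards [hnz, hne f, hne g] with x hxn hxf hxg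
  rw [hpw x hxn, enorm_rpow_eq (div_ne_zero hxf hMc), enorm_rpow_eq (div_ne_zero hxg hMc), hnorm,
    hnorm, Real.log_div (norm_ne_zero_iff.2 hxf) hM0.ne',
    Real.log_div (norm_ne_zero_iff.2 hxg) hM0.ne', ← ENNReal.ofReal_mul (Real.exp_pos _).le,
    ← Real.exp_add, ← ENNReal.ofReal_mul (Real.exp_pos _).le, ← Real.exp_add]
  unfold Zorn.wt
  rw [Zorn.lg_add, Zorn.lg_add, Zorn.lg_single, Zorn.lg_single]
  refine ENNReal.ofReal_le_ofReal (Real.exp_le_exp.2 ?_)
  have h5 : 0 ≤ (S + K₁ + K₂) * Real.log M := by positivity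
  linarith

end Vale.Agent.P271.LOC
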