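import Vale.Agent.P271.LOC.Defs
import Vale.Agent.P271.H884.Psh

/-!
P271, block LOC: the regularised weights
`φ_ε = (1 / 2P) log ∑ (|b_i|² + ε)^{P / l_i}`.
-/

open MeasureTheory Filter Topology Metric
open scoped ENNReal NNReal ComplexConjugate

namespace Vale.Agent.P271.LOC

open Vale.Agent.P282.L2 Vale.Agent.P271.Dom

variable {n : ℕ} {ι : Type*} [Fintype ι] [Nonempty ι]

/-- The regularised weight. -/
noncomputable def ph (b : ι → (Fin n → ℂ) → ℂ) (l : ι → ℝ) (ε : ℝ) (w : Fin n → ℂ) : ℝ :=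
  (4 * (Fintype.card ι : ℝ))⁻¹ *
    Real.log (∑ i, Real.exp (2 * (Fintype.card ι : ℝ) / l i * Real.log (‖b i w‖ ^ 2 + ε)))

variable {b : ι → (Fin n → ℂ) → ℂ} {l : ι → ℝ} {ε ε' : ℝ} {w : Fin n → ℂ}

theorem card_pos' (ι : Type*) [Fintype ι] [Nonempty ι] : (0 : ℝ) < Fintype.card ι := by
  exact_mod_cast Fintype.card_pos

theorem sum_exp_pos (f : ι → ℝ) : 0 < ∑ i, Real.exp (f i) :=
  Finset.sum_pos (fun _ _ => Real.exp_pos _) Finset.univ_nonempty

theorem ph_le (hl : ∀ i, 0 < l i) {T : ℝ}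
    (h : ∀ i, Real.log (‖b i w‖ ^ 2 + ε) ≤ 2 * T * l i) : ph b l ε w ≤ T + 1 / 4 := by
  have hN := card_pos' ι
  have h1 : ∑ i, Real.exp (2 * (Fintype.card ι : ℝ) / l i * Real.log (‖b i w‖ ^ 2 + ε)) ≤
      Fintype.card ι * Real.exp (4 * Fintype.card ι * T) := by
    calc _ ≤ ∑ _i : ι, Real.exp (4 * Fintype.card ι * T) := by
          refine Finset.sum_le_sum fun i _ => Real.exp_le_exp.2 ?_
          have h2 := mul_le_mul_of_nonneg_left (h i)
            (div_nonneg (by positivity : (0 : ℝ) ≤ 2 * (Fintype.card ι : ℝ)) (hl i).le)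
          refine h2.trans (le_of_eq ?_)
          have := (hl i).ne'
          field_simp
          ring
      _ = _ := by simp
  have h2 := Real.log_le_log (sum_exp_pos _) h1
  rw [Real.log_mul hN.ne' (Real.exp_pos _).ne', Real.log_exp] at h2
  have h3 : Real.log (Fintype.card ι) ≤ Fintype.card ι :=
    (Real.log_le_sub_one_of_pos hN).trans (by linarith)
  unfold ph
  rw [inv_mul_le_iff₀ (by positivity)]
  linarith

theorem le_ph (hl : ∀ i, 0 < l i) {T : ℝ} {i : ι}
    (h : 2 * T * l i ≤ Real.log (‖b i w‖ ^ 2 + ε)) : T ≤ ph b l ε w := by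
  have hN := card_pos' ι
  have h1 : Real.exp (4 * Fintype.card ι * T) ≤
      ∑ i, Real.exp (2 * (Fintype.card ι : ℝ) / l i * Real.log (‖b i w‖ ^ 2 + ε)) := by
    refine le_trans ?_ (Finset.single_le_sum
      (f := fun i => Real.exp (2 * (Fintype.card ι : ℝ) / l i * Real.log (‖b i w‖ ^ 2 + ε)))
      (fun i _ => (Real.exp_pos _).le) (Finset.mem_univ i))
    refine Real.exp_le_exp.2 ?_
    have h2 := mul_le_mul_of_nonneg_left h
      (div_nonneg (by positivity : (0 : ℝ) ≤ 2 * (Fintype.card ι : ℝ)) (hl i).le)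
    refine le_trans (le_of_eq ?_) h2
    have := (hl i).ne'
    field_simp
    ring
  have h2 := Real.log_le_log (Real.exp_pos _) h1
  rw [Real.log_exp] at h2
  unfold ph
  rw [le_inv_mul_iff₀ (by positivity)]
  exact h2

theorem ph_mono (hl : ∀ i, 0 < l i) (hε : 0 < ε) (h : ε ≤ ε') : ph b l ε w ≤ ph b l ε' w := by
  have hN := card_pos' ι
  unfold ph
  refine mul_le_mul_of_nonneg_left (Real.log_le_log (sum_exp_pos _) ?_) (by positivity)
  refine Finset.sum_le_sum fun i _ => Real.exp_le_exp.2 ?_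
  refine mul_le_mul_of_nonneg_left (Real.log_le_log (by positivity) (by linarith)) ?_
  exact div_nonneg (by positivity) (hl i).le

theorem ph_cda {V : Set (Fin n → ℂ)} (hV : IsOpen V) (hb : ∀ i, DifferentiableOn ℂ (b i) V)
    (hw : w ∈ V) (hε : 0 < ε) (m : ℕ) : ContDiffAt ℝ m (ph b l ε) w := by
  unfold ph
  refine contDiffAt_const.mul ?_
  refine ContDiffAt.log ?_ (sum_exp_pos _).ne'
  refine ContDiffAt.sum fun i _ => ?_
  refine (Real.contDiff_exp.contDiffAt).comp w (contDiffAt_const.mul ?_)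
  refine ContDiffAt.log ((normSq_cda hV (hb i) hw m).add contDiffAt_const) ?_
  positivity

theorem ph_levi {V : Set (Fin n → ℂ)} (hV : IsOpen V) (hb : ∀ i, DifferentiableOn ℂ (b i) V)
    (hl : ∀ i, 0 < l i) (hw : w ∈ V) (hε : 0 < ε) (β : Fin n → ℂ) :
    0 ≤ leviF (ph b l ε) β w := by
  have hN := card_pos' ι
  have h0 : ∀ i, ContDiffAt ℝ 2 (fun w => Real.log (‖b i w‖ ^ 2 + ε)) w := fun i =>
    ContDiffAt.log ((normSq_cda hV (hb i) hw 2).add contDiffAt_const) (by positivity)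
  have h1 : ∀ i, ContDiffAt ℝ 2
      (fun w => 2 * (Fintype.card ι : ℝ) / l i * Real.log (‖b i w‖ ^ 2 + ε)) w := fun i =>
    contDiffAt_const.mul (h0 i)
  have h2 : ContDiffAt ℝ 2 (fun w => Real.log (∑ i, Real.exp
      (2 * (Fintype.card ι : ℝ) / l i * Real.log (‖b i w‖ ^ 2 + ε)))) w := by
    refine ContDiffAt.log ?_ (sum_exp_pos _).ne'
    exact ContDiffAt.sum fun i _ => (Real.contDiff_exp.contDiffAt).comp w (h1 i)
  have h3 := leviF_const_mul h2 (4 * (Fintype.card ι : ℝ))⁻¹ β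
  have h4 : leviF (ph b l ε) β w = _ := h3
  rw [h4]
  refine mul_nonneg (by positivity) (leviF_lse h1 fun i => ?_)
  rw [leviF_const_mul (h0 i)]
  refine mul_nonneg (div_nonneg (by positivity) (hl i).le) ?_
  rw [leviF_log_normSq hV (hb i) hw hε]
  positivity

/-- If `mx < e^T`, then `φ_ε ≤ T + 1 / 4` for all small `ε`. -/
theorem exists_ph_le {ε : ℕ → ℝ} (hε : ∀ m, 0 < ε m) (hlim : Tendsto ε atTop (𝓝 0))
    (hl : ∀ i, 0 < l i) {T : ℝ} (h : (mx b l w : ℝ) < Real.exp T) :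
    ∃ m, ph b l (ε m) w ≤ T + 1 / 4 := by
  have h1 : ∀ i, 0 < l i → ‖b i w‖ < Real.exp (-(-T * l i)) :=
    mx_lt_exp.1 (by rwa [neg_neg])
  have h2 : ∀ i, ∀ᶠ m in atTop, ‖b i w‖ ^ 2 + ε m < Real.exp (2 * T * l i) := by
    intro i
    have h3 : ‖b i w‖ ^ 2 < Real.exp (2 * T * l i) := by
      have h4 := pow_lt_pow_left₀ (h1 i (hl i)) (norm_nonneg _) two_ne_zero
      rwa [← Real.exp_nat_mul, show ((2 : ℕ) : ℝ) * -(-T * l i) = 2 * T * l i by
        push_cast; ring] at h4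
    have h5 : Tendsto (fun m => ‖b i w‖ ^ 2 + ε m) atTop (𝓝 (‖b i w‖ ^ 2 + 0)) :=
      hlim.const_add _
    rw [add_zero] at h5
    exact h5.eventually_lt_const h3
  obtain ⟨m, hm⟩ := (Filter.eventually_all.2 h2).exists
  refine ⟨m, ph_le hl fun i => ?_⟩
  have h6 : (0 : ℝ) < ‖b i w‖ ^ 2 + ε m := by
    have := hε m
    positivity
  exact (Real.log_le_log h6 (hm i).le).trans (le_of_eq (Real.log_exp _))

theorem iSup_exp_ph {ε : ℕ → ℝ} (hε : ∀ m, 0 < ε m) (hlim : Tendsto ε atTop (𝓝 0))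
    (hl : ∀ i, 0 < l i) {c : ℝ} (hc : 0 < c) (w : Fin n → ℂ) :
    ENNReal.ofReal (Real.exp (-(3 * c))) * (mx b l w : ℝ≥0∞) ^ (-(2 * c)) ≤
      ⨆ m, ENNReal.ofReal (Real.exp (-(2 * c * ph b l (ε m) w))) := by
  have h1 : ∀ T : ℝ, (mx b l w : ℝ) < Real.exp T →
      ENNReal.ofReal (Real.exp (-(2 * c * (T + 1 / 4)))) ≤
        ⨆ m, ENNReal.ofReal (Real.exp (-(2 * c * ph b l (ε m) w))) := by
    intro T hT
    obtain ⟨m, hm⟩ := exists_ph_le hε hlim hl hT
    refine le_trans ?_ (le_iSup _ m)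
    refine ENNReal.ofReal_le_ofReal (Real.exp_le_exp.2 ?_)
    have := mul_le_mul_of_nonneg_left hm (by positivity : (0 : ℝ) ≤ 2 * c)
    linarith
  by_cases h0 : mx b l w = 0
  · have h2 : ⨆ m, ENNReal.ofReal (Real.exp (-(2 * c * ph b l (ε m) w))) = ⊤ := by
      rw [eq_top_iff]
      have h3 : Tendsto (fun S : ℝ => ENNReal.ofReal (Real.exp (-(2 * c * (-S + 1 / 4))))) atTop
          (𝓝 ⊤) := by
        refine ENNReal.tendsto_ofReal_atTop.comp (Real.tendsto_exp_atTop.comp ?_)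
        have h4 : (fun S : ℝ => -(2 * c * (-S + 1 / 4))) = fun S => 2 * c * S + -(c / 2) := by
          funext S
          ring
        rw [h4]
        exact tendsto_atTop_add_const_right _ _ (tendsto_id.const_mul_atTop (by positivity))
      refine le_of_tendsto h3 (Eventually.of_forall fun S => h1 (-S) ?_)
      rw [h0]
      exact Real.exp_pos _
    rw [h2]
    exact le_top
  · have h0' : (0 : ℝ) < mx b l w := by
      have : 0 < mx b l w := pos_iff_ne_zero.2 h0
      exact_mod_cast this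
    have h5 : (mx b l w : ℝ≥0∞) ^ (-(2 * c)) =
        ENNReal.ofReal (Real.exp (-(2 * c * Real.log (mx b l w)))) := by
      rw [← ENNReal.ofReal_coe_nnreal, ENNReal.ofReal_rpow_of_pos h0',
        Real.rpow_def_of_pos h0']
      congr 2
      ring
    have h6 := h1 (Real.log (mx b l w) + 1) (by
      rw [Real.exp_add, Real.exp_log h0']
      have := Real.add_one_lt_exp (one_ne_zero)
      nlinarith)
    refine le_trans ?_ h6
    rw [h5, ← ENNReal.ofReal_mul (Real.exp_pos _).le, ← Real.exp_add]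
    refine ENNReal.ofReal_le_ofReal (Real.exp_le_exp.2 ?_)
    nlinarith

/-- The integrals of `e^{-2cφ_ε}` over a neighbourhood of a point of non-integrability are
unbounded. -/
theorem iSup_lintegral_ph {ε : ℕ → ℝ} (hε : ∀ m, 0 < ε m) (hlim : Tendsto ε atTop (𝓝 0))
    (hanti : Antitone ε) (hl : ∀ i, 0 < l i) {c : ℝ} (hc : 0 < c) {z : Fin n → ℂ}
    (hNI : NI volume b l c z) {U : Set (Fin n → ℂ)} (hU : IsOpen U) (hz : z ∈ U)
    (hb : ∀ i, DifferentiableOn ℂ (b i) U) :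
    ⨆ m, ∫⁻ w in U, ENNReal.ofReal (Real.exp (-(2 * c * ph b l (ε m) w))) = ⊤ := by
  have hcont : ∀ m, ContinuousOn (fun w => ENNReal.ofReal
      (Real.exp (-(2 * c * ph b l (ε m) w)))) U := by
    intro m w hw
    have h1 : ContinuousAt (ph b l (ε m)) w := (ph_cda hU hb hw (hε m) 0).continuousAt
    refine ContinuousAt.continuousWithinAt ?_
    exact ENNReal.continuous_ofReal.continuousAt.comp
      (Real.continuous_exp.continuousAt.comp (h1.const_mul (2 * c)).neg)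
  rw [← lintegral_iSup' (fun m => (hcont m).aemeasurable hU.measurableSet)]
  · rw [eq_top_iff]
    calc (⊤ : ℝ≥0∞) = ENNReal.ofReal (Real.exp (-(3 * c))) *
          ∫⁻ w in U, (mx b l w : ℝ≥0∞) ^ (-(2 * c)) := by
          rw [hNI U (hU.mem_nhds hz), ENNReal.mul_top]
          exact (ENNReal.ofReal_pos.2 (Real.exp_pos _)).ne'
      _ = ∫⁻ w in U, ENNReal.ofReal (Real.exp (-(3 * c))) * (mx b l w : ℝ≥0∞) ^ (-(2 * c)) :=
          (lintegral_const_mul' _ _ ENNReal.ofReal_ne_top).symm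
      _ ≤ _ := lintegral_mono fun w => iSup_exp_ph hε hlim hl hc w
  · refine Eventually.of_forall fun w m m' hm => ?_
    refine ENNReal.ofReal_le_ofReal (Real.exp_le_exp.2 ?_)
    have := ph_mono (b := b) (l := l) (w := w) hl (hε m') (hanti hm)
    nlinarith

end Vale.Agent.P271.LOC
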